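import Crest.Agent.X261.Pole2.Mod
import Crest.Agent.X261.Pole2.Defs
import Crest.Agent.X261.BT.Inst
import Crest.Agent.X261.Pole.Lim

-- ▼ part X261/Law/One
section

/-!
# Row 261, package LAW (helper64), file `One`: the sharp one variable profiles

Copy of `Pole2/One` (helper32) with a parameter: the cut-off lives on `[1, 1 + 1/(N+1)]`.
-/

set_option autoImplicit false

open Set Filter Topology MeasureTheory
open scoped ContDiff

namespace Crest.Agent.X261.Law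

noncomputable section

/-- the right end of the cut-off -/
def bN (N : ℕ) : ℝ := 1 + 1 / (N + 1)

/-- the cut-off -/
def gT (N : ℕ) (τ : ℝ) : ℝ := Real.smoothTransition ((N + 1) * (τ - 1))

/-- derivative of the cut-off -/
def g2 (N : ℕ) (τ : ℝ) : ℝ := deriv (gT N) τ

/-- derivative of the profile -/
def g1 (N : ℕ) (τ : ℝ) : ℝ := gT N τ / τ

/-- second derivative of the profile -/
def g3 (N : ℕ) (τ : ℝ) : ℝ := deriv (g1 N) τ

/-- the profile -/
def Fm (N : ℕ) (ρ : ℝ) : ℝ := Real.log (bN N) + ∫ τ in (bN N)..ρ, g1 N τ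

variable {N : ℕ}

theorem one_lt_bN : 1 < bN N := lt_add_of_pos_right _ (by positivity)

theorem bN_pos : 0 < bN N := one_pos.trans one_lt_bN

theorem bN_le : bN N ≤ 2 := by
  have : (1 : ℝ) / (N + 1) ≤ 1 := div_le_one_of_le₀ (by linarith [Nat.cast_nonneg (α := ℝ) N])
    (by positivity)
  unfold bN; linarith

theorem log_bN_le : Real.log (bN N) ≤ 1 / (N + 1) := by
  have := Real.log_le_sub_one_of_pos (bN_pos (N := N))
  unfold bN at this ⊢; linarith

theorem gT_smooth : ContDiff ℝ ∞ (gT N) :=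
  Real.smoothTransition.contDiff.comp (contDiff_const.mul (contDiff_id.sub contDiff_const))

theorem gT_zero {τ : ℝ} (h : τ ≤ 1) : gT N τ = 0 :=
  Real.smoothTransition.zero_of_nonpos
    (mul_nonpos_of_nonneg_of_nonpos (by positivity) (by linarith))

theorem gT_one {τ : ℝ} (h : bN N ≤ τ) : gT N τ = 1 :=
  Real.smoothTransition.one_of_one_le (by
    have h1 : 1 / ((N : ℝ) + 1) ≤ τ - 1 := by unfold bN at h; linarith
    rw [div_le_iff₀ (by positivity)] at h1
    linarith)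

theorem gT_nonneg (τ : ℝ) : 0 ≤ gT N τ := Real.smoothTransition.nonneg _

theorem gT_le_one (τ : ℝ) : gT N τ ≤ 1 := Real.smoothTransition.le_one _

theorem gT_pos {τ : ℝ} (h : 1 < τ) : 0 < gT N τ :=
  Real.smoothTransition.pos_of_pos (mul_pos (by positivity) (by linarith))

theorem gT_mono : Monotone (gT N) := fun _ _ h =>
  Real.smoothTransition.monotone (mul_le_mul_of_nonneg_left (by linarith) (by positivity))

theorem gT_deriv (τ : ℝ) : HasDerivAt (gT N) (g2 N τ) τ :=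
  (gT_smooth.differentiable (by simp) τ).hasDerivAt

theorem g2_smooth : ContDiff ℝ ∞ (g2 N) := (contDiff_infty_iff_deriv.1 gT_smooth).2

theorem g2_nonneg (τ : ℝ) : 0 ≤ g2 N τ := gT_mono.deriv_nonneg

theorem g2_zero_of_le {τ : ℝ} (h : τ ≤ 1) : g2 N τ = 0 :=
  IsLocalMin.deriv_eq_zero (Eventually.of_forall fun x => by
    rw [gT_zero h]; exact gT_nonneg x)

theorem g2_zero_of_ge {τ : ℝ} (h : bN N ≤ τ) : g2 N τ = 0 :=
  IsLocalMax.deriv_eq_zero (Eventually.of_forall fun x => by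
    rw [gT_one h]; exact gT_le_one x)

theorem g1_zero {τ : ℝ} (h : τ ≤ 1) : g1 N τ = 0 := by rw [g1, gT_zero h, zero_div]

theorem g1_smooth : ContDiff ℝ ∞ (g1 N) := by
  refine contDiff_iff_contDiffAt.2 fun τ => ?_
  rcases lt_or_ge τ 1 with h | h
  · refine (contDiffAt_const (c := (0 : ℝ))).congr_of_eventuallyEq ?_
    exact (eventually_lt_nhds h).mono fun _ hx => g1_zero hx.le
  · exact gT_smooth.contDiffAt.div contDiffAt_id (by linarith)

theorem g1_nonneg (τ : ℝ) : 0 ≤ g1 N τ := by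
  rcases le_or_gt τ 1 with h | h
  · rw [g1_zero h]
  · exact div_nonneg (gT_nonneg τ) (by linarith)

theorem g1_mul (τ : ℝ) : g1 N τ * τ = gT N τ := by
  rcases le_or_gt τ 1 with h | h
  · rw [g1_zero h, gT_zero h, zero_mul]
  · exact div_mul_cancel₀ _ (by linarith)

theorem g1_le (τ : ℝ) : g1 N τ ≤ 1 / max τ 1 := by
  rcases le_or_gt τ 1 with h | h
  · rw [g1_zero h]; positivity
  · rw [max_eq_left h.le]
    exact div_le_div_of_nonneg_right (gT_le_one τ) (by linarith)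

theorem g1_deriv (τ : ℝ) : HasDerivAt (g1 N) (g3 N τ) τ :=
  (g1_smooth.differentiable (by simp) τ).hasDerivAt

theorem g1_add (τ : ℝ) : g1 N τ + g3 N τ * τ = g2 N τ := by
  have h1 := (g1_deriv (N := N) τ).mul (hasDerivAt_id τ)
  have h2 : (g1 N * id) = gT N := funext fun x => g1_mul x
  rw [h2] at h1
  have := h1.unique (gT_deriv τ)
  simp only [id, mul_one] at this
  linarith

theorem g3_zero {τ : ℝ} (h : τ ≤ 1) : g3 N τ = 0 :=
  IsLocalMin.deriv_eq_zero (Eventually.of_forall fun x => by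
    rw [g1_zero h]; exact g1_nonneg x)

theorem exists_g2_bd (N : ℕ) : ∃ L : ℝ, 1 ≤ L ∧ ∀ τ, g2 N τ ≤ L / max τ 1 := by
  obtain ⟨C, hC⟩ := (isCompact_Icc (a := (1 : ℝ)) (b := 2)).exists_bound_of_continuousOn
    (g2_smooth (N := N)).continuous.continuousOn
  refine ⟨max 1 (2 * C), le_max_left _ _, fun τ => ?_⟩
  have h0 : 0 ≤ max 1 (2 * C) / max τ 1 := by positivity
  rcases le_or_gt τ 1 with h | h
  · rwa [g2_zero_of_le h]
  rcases le_or_gt 2 τ with h' | h'
  · rwa [g2_zero_of_ge (bN_le.trans h')]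
  have h1 := (le_abs_self _).trans (hC τ ⟨h.le, h'.le⟩)
  have h2 := g2_nonneg (N := N) τ
  rw [max_eq_left h.le, le_div_iff₀ (by linarith)]
  have := le_max_right 1 (2 * C)
  nlinarith

/-- a bound for `g2` -/
def L0 (N : ℕ) : ℝ := (exists_g2_bd N).choose

theorem one_le_L0 : 1 ≤ L0 N := (exists_g2_bd N).choose_spec.1

theorem g2_le (τ : ℝ) : g2 N τ ≤ L0 N / max τ 1 := (exists_g2_bd N).choose_spec.2 τ

theorem g3_le (τ : ℝ) : g3 N τ ≤ L0 N := by
  have h0 := one_le_L0 (N := N)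
  rcases le_or_gt τ 1 with h | h
  · rw [g3_zero h]; linarith
  have h1 := g1_add (N := N) τ
  have h2 := (g2_le (N := N) τ).trans (div_le_self (by linarith) (le_max_right τ 1))
  have h3 := g1_nonneg (N := N) τ
  by_contra h4
  push Not at h4
  nlinarith

theorem Fm_deriv (ρ : ℝ) : HasDerivAt (Fm N) (g1 N ρ) ρ :=
  (intervalIntegral.integral_hasDerivAt_right (g1_smooth.continuous.intervalIntegrable _ _)
    (g1_smooth.continuous.stronglyMeasurableAtFilter _ _)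
    g1_smooth.continuous.continuousAt).const_add _

theorem Fm_smooth : ContDiff ℝ ∞ (Fm N) := by
  refine contDiff_infty_iff_deriv.2 ⟨fun ρ => (Fm_deriv ρ).differentiableAt, ?_⟩
  rw [show deriv (Fm N) = g1 N from funext fun ρ => (Fm_deriv ρ).deriv]
  exact g1_smooth

theorem Fm_mono : Monotone (Fm N) :=
  monotone_of_deriv_nonneg (fun ρ => (Fm_deriv ρ).differentiableAt) fun ρ => by
    rw [(Fm_deriv ρ).deriv]; exact g1_nonneg ρ

theorem Fm_b : Fm N (bN N) = Real.log (bN N) := by simp [Fm]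

theorem Fm_sub_anti : AntitoneOn (fun ρ => Fm N ρ - Real.log ρ) (Ioi 0) := by
  have hd : ∀ ρ ∈ Ioi (0 : ℝ), HasDerivAt (fun ρ => Fm N ρ - Real.log ρ) (g1 N ρ - ρ⁻¹) ρ :=
    fun ρ hρ => (Fm_deriv ρ).sub (Real.hasDerivAt_log (ne_of_gt hρ))
  refine antitoneOn_of_deriv_nonpos (convex_Ioi 0)
    (fun ρ hρ => (hd ρ hρ).continuousAt.continuousWithinAt) (fun ρ hρ => ?_) fun ρ hρ => ?_
  · rw [interior_Ioi] at hρ; exact (hd ρ hρ).differentiableAt.differentiableWithinAt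
  · rw [interior_Ioi] at hρ
    rw [(hd ρ hρ).deriv, g1, sub_nonpos, ← one_div]
    exact div_le_div_of_nonneg_right (gT_le_one ρ) (le_of_lt hρ)

theorem Fm_log {ρ : ℝ} (h : bN N ≤ ρ) : Fm N ρ = Real.log ρ := by
  have h0 := bN_pos (N := N)
  have h1 : ∫ τ in (bN N)..ρ, g1 N τ = ∫ τ in (bN N)..ρ, τ⁻¹ :=
    intervalIntegral.integral_congr fun τ hτ => by
      rw [uIcc_of_le h] at hτ
      rw [g1, gT_one hτ.1, one_div]
  rw [Fm, h1, integral_inv_of_pos h0 (by linarith), Real.log_div (by linarith) h0.ne']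
  ring

theorem log_le_Fm {ρ : ℝ} (h : 0 < ρ) : Real.log ρ ≤ Fm N ρ := by
  rcases le_total (bN N) ρ with h2 | h2
  · exact (Fm_log h2).ge
  · have := Fm_sub_anti (N := N) (mem_Ioi.2 h) (mem_Ioi.2 bN_pos) h2
    simp only [Fm_b, sub_self] at this
    linarith

theorem Fm_le {ρ : ℝ} (h : ρ ≤ 1) : Fm N ρ ≤ 1 / (N + 1) :=
  ((Fm_mono (h.trans one_lt_bN.le)).trans_eq Fm_b).trans log_bN_le

theorem Fm_const {ρ : ℝ} (h : ρ ≤ 1) : Fm N ρ = Fm N 1 := by
  have h1 : ∫ τ in ρ..1, g1 N τ = 0 := by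
    rw [intervalIntegral.integral_congr (g := fun _ => (0 : ℝ)) fun τ hτ => by
      rw [uIcc_of_le h] at hτ; exact g1_zero hτ.2]
    simp
  have h2 := intervalIntegral.integral_add_adjacent_intervals
    ((g1_smooth (N := N)).continuous.intervalIntegrable (μ := volume) (bN N) ρ)
    (g1_smooth.continuous.intervalIntegrable ρ 1)
  rw [Fm, Fm, ← h2, h1, add_zero]

theorem Fm_nonneg (ρ : ℝ) : 0 ≤ Fm N ρ := by
  have h1 : 0 ≤ Fm N 1 := by simpa using log_le_Fm (N := N) one_pos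
  rcases le_total ρ 1 with h | h
  · rwa [Fm_const h]
  · exact h1.trans (Fm_mono h)

theorem logmax_le_Fm (ρ : ℝ) : Real.log (max ρ 1) ≤ Fm N ρ := by
  rcases le_total ρ 1 with h | h
  · rw [max_eq_right h, Real.log_one]; exact Fm_nonneg ρ
  · rw [max_eq_left h]; exact log_le_Fm (by linarith)

/-- Taylor bound -/
theorem Fm_taylor (ρ ρ' : ℝ) :
    Fm N ρ' - Fm N ρ ≤ g1 N ρ * (ρ' - ρ) + L0 N * (ρ' - ρ) ^ 2 := by
  have hL := one_le_L0 (N := N)
  have ha : Antitone fun x => g1 N x - L0 N * x :=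
    antitone_of_deriv_nonpos
      (fun x => ((g1_deriv x).sub ((hasDerivAt_id x).const_mul (L0 N))).differentiableAt)
      fun x => by
        have h1 : HasDerivAt (fun x => g1 N x - L0 N * x) (g3 N x - L0 N * 1) x :=
          (g1_deriv x).sub ((hasDerivAt_id x).const_mul (L0 N))
        rw [h1.deriv]; linarith [g3_le (N := N) x]
  rcases lt_trichotomy ρ ρ' with h | h | h
  · obtain ⟨ξ, hξ, h1⟩ := exists_hasDerivAt_eq_slope (Fm N) (g1 N) h
      Fm_smooth.continuous.continuousOn fun x _ => Fm_deriv x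
    rw [eq_div_iff (by linarith)] at h1
    have h2 := ha hξ.1.le
    have h3 : g1 N ξ ≤ g1 N ρ + L0 N * (ρ' - ρ) := by nlinarith [hξ.2]
    nlinarith
  · simp [h]
  · obtain ⟨ξ, hξ, h1⟩ := exists_hasDerivAt_eq_slope (Fm N) (g1 N) h
      Fm_smooth.continuous.continuousOn fun x _ => Fm_deriv x
    rw [eq_div_iff (by linarith)] at h1
    have h2 := ha hξ.2.le
    have h3 : g1 N ρ ≤ g1 N ξ + L0 N * (ρ - ρ') := by nlinarith [hξ.1]
    nlinarith

/-- `Fm (e^h ρ) - h` decreases in `h` -/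
theorem Fm_shift {h : ℝ} (hh : 0 ≤ h) {ρ : ℝ} (hρ : 0 ≤ ρ) :
    Fm N (Real.exp h * ρ) - h ≤ Fm N ρ := by
  have h1 : ρ ≤ Real.exp h * ρ := le_mul_of_one_le_left hρ (Real.one_le_exp hh)
  rcases hρ.eq_or_lt with rfl | h0
  · rw [mul_zero]; linarith
  have := Fm_sub_anti (N := N) (mem_Ioi.2 h0) (mem_Ioi.2 (h0.trans_le h1)) h1
  simp only [Real.log_mul (Real.exp_pos h).ne' h0.ne', Real.log_exp] at this
  linarith

end

end Crest.Agent.X261.Law
end

-- ▼ part X261/Law/Mod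
section

/-!
# Row 261, package LAW (helper64), file `Mod`: the sharp radial models on `ℂ^p`

Copy of `Pole2/Mod` (helper32) with a parameter; the constants `m1`, `k1` are the same.
-/

set_option autoImplicit false

open Set Filter Topology Complex MeasureTheory Metric
open scoped ContDiff Matrix ComplexConjugate ComplexOrder InnerProductSpace

namespace Crest.Agent.X261.Law

open Crest.Agent.R275.Geo Crest.Agent.R275.EDR890
open Crest.Agent.R273 Crest.Agent.R273.Hess_333 Crest.Agent.R273.HessB_333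
open Crest.Agent.R273.Map_835 (mt mt_apply)
open Crest.Agent.R281.Rich_710 (cj cj_jc qf_hess)
open Crest.Agent.R257.HoB_843 (lvE lvE_comp)
open Crest.Agent.R257.Glue2_101 (lvE_add lvE_const_mul lvE_const)
open Crest.Agent.X261.BT
open Crest.Agent.X261.Pole2 (hess_pull hess_nsq wd_nsq wd_nsq' hess_cst sm_nsq m1 k1 m1_eq jd
  int_lin aff_hol aff_smooth aff_fderiv)

noncomputable section

variable {p N : ℕ}

/-- the radial model -/
def ell (N : ℕ) (w : Cn p) : ℝ := Fm N (‖w‖ ^ 2)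

theorem ell_smooth : ContDiff ℝ ∞ ((ell N) : Cn p → ℝ) := Fm_smooth.comp sm_nsq

theorem hess_ell (w : Cn p) : hess (ell N) w = (g1 N (‖w‖ ^ 2) : ℂ) • (1 : MC p) +
    (g3 N (‖w‖ ^ 2) : ℂ) • Matrix.vecMulVec (fun a => conj (w a)) fun b => w b := by
  ext a b
  have h := FIa0_597.hess_comp_real (φ := (Fm N)) (φ' := (g1 N)) (u := fun w : Cn p => ‖w‖ ^ 2) (z := w)
    sm_nsq.contDiffAt (Eventually.of_forall Fm_deriv) (g1_deriv _) a b
  rw [hess_nsq, wd_nsq, wd_nsq'] at h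
  exact h

theorem lvE_ell (w v : Cn p) :
    lvE (ell N) w v = g1 N (‖w‖ ^ 2) * ‖v‖ ^ 2 + g3 N (‖w‖ ^ 2) * ‖⟪w, v⟫_ℂ‖ ^ 2 := by
  rw [← cj_jc v, ← qf_hess ell_smooth.contDiffAt, cj_jc, hess_ell, SerD_945.qf, Matrix.add_mulVec,
    Matrix.smul_mulVec, Matrix.smul_mulVec, Matrix.one_mulVec, dotProduct_add, dotProduct_smul,
    dotProduct_smul, Matrix.vecMulVec_mulVec, Complex.add_re, smul_eq_mul, smul_eq_mul,
    Complex.re_ofReal_mul, Complex.re_ofReal_mul]
  have h1 : star (R281.Rich_710.jc v) ⬝ᵥ R281.Rich_710.jc v = ((‖v‖ ^ 2 : ℝ) : ℂ) := by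
    rw [EuclideanSpace.norm_sq_eq]
    simp [dotProduct, R281.Rich_710.jc, Complex.mul_conj, Complex.normSq_eq_norm_sq]
  have h2 : star (R281.Rich_710.jc v) ⬝ᵥ (fun a => conj (w a)) = ⟪w, v⟫_ℂ := by
    simp [dotProduct, R281.Rich_710.jc, PiLp.inner_apply]
  have h3 : (fun b => w b) ⬝ᵥ R281.Rich_710.jc v = conj ⟪w, v⟫_ℂ := by
    simp [dotProduct, R281.Rich_710.jc, PiLp.inner_apply, mul_comm]
  rw [h1, dotProduct_smul, h2, h3, Complex.ofReal_re, MulOpposite.smul_eq_mul_unop,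
    MulOpposite.unop_op, Complex.mul_conj, Complex.ofReal_re, Complex.normSq_eq_norm_sq]

theorem lvE_ell_bd (w v : Cn p) :
    0 ≤ lvE (ell N) w v ∧ lvE (ell N) w v ≤ L0 N / max (‖w‖ ^ 2) 1 * ‖v‖ ^ 2 := by
  rw [lvE_ell]
  have h1 : ‖⟪w, v⟫_ℂ‖ ^ 2 ≤ ‖w‖ ^ 2 * ‖v‖ ^ 2 := by
    rw [← mul_pow]; exact pow_le_pow_left₀ (norm_nonneg _) (norm_inner_le_norm w v) 2
  have h2 := g1_add (N := N) (‖w‖ ^ 2)
  have h3 := g2_nonneg (N := N) (‖w‖ ^ 2)
  have h4 := g1_nonneg (N := N) (‖w‖ ^ 2)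
  have h5 := g2_le (N := N) (‖w‖ ^ 2)
  have h6 : g1 N (‖w‖ ^ 2) ≤ L0 N / max (‖w‖ ^ 2) 1 :=
    (g1_le _).trans (div_le_div_of_nonneg_right one_le_L0 (by positivity))
  have h7 : 0 ≤ ‖v‖ ^ 2 := by positivity
  have h8 : 0 ≤ ‖⟪w, v⟫_ℂ‖ ^ 2 := by positivity
  have e : g2 N (‖w‖ ^ 2) * ‖v‖ ^ 2 = g1 N (‖w‖ ^ 2) * ‖v‖ ^ 2 + g3 N (‖w‖ ^ 2) * (‖w‖ ^ 2 * ‖v‖ ^ 2) := by
    rw [← h2]; ring
  rcases le_total 0 (g3 N (‖w‖ ^ 2)) with h | h
  · have := mul_le_mul_of_nonneg_left h1 h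
    exact ⟨by positivity, by nlinarith [mul_le_mul_of_nonneg_right h5 h7]⟩
  · have := mul_le_mul_of_nonpos_left h1 h
    exact ⟨by nlinarith [mul_nonneg h3 h7],
      by nlinarith [mul_le_mul_of_nonneg_right h6 h7, mul_nonneg_of_nonpos_of_nonpos h h]⟩

theorem det_hess_ell (hp : 1 ≤ p) (w : Cn p) :
    (hess (ell N) w).det = ((g1 N (‖w‖ ^ 2) ^ (p - 1) * g2 N (‖w‖ ^ 2) : ℝ) : ℂ) := by
  rw [hess_ell]
  rcases le_or_gt (‖w‖ ^ 2) 1 with h | h
  · have : Nonempty (Fin p) := ⟨⟨0, hp⟩⟩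
    rw [g1_zero h, g3_zero h, g2_zero_of_le h]
    simp
  have h0 : g1 N (‖w‖ ^ 2) ≠ 0 := (div_pos (gT_pos h) (by linarith)).ne'
  have h0' : (g1 N (‖w‖ ^ 2) : ℂ) ≠ 0 := by exact_mod_cast h0
  have e : (g1 N (‖w‖ ^ 2) : ℂ) • (1 : MC p) +
      (g3 N (‖w‖ ^ 2) : ℂ) • Matrix.vecMulVec (fun a => conj (w a)) (fun b => w b) =
      (g1 N (‖w‖ ^ 2) : ℂ) • (1 + Matrix.replicateCol Unit
        (fun a => (g3 N (‖w‖ ^ 2) : ℂ) / (g1 N (‖w‖ ^ 2) : ℂ) * conj (w a)) *
        Matrix.replicateRow Unit fun b => w b) := by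
    rw [← Matrix.vecMulVec_eq]
    ext a b
    simp only [Matrix.add_apply, Matrix.smul_apply, Matrix.vecMulVec_apply, smul_eq_mul]
    field_simp
  have h1 : (fun b => w b) ⬝ᵥ (fun a => (g3 N (‖w‖ ^ 2) : ℂ) / (g1 N (‖w‖ ^ 2) : ℂ) * conj (w a)) =
      (g3 N (‖w‖ ^ 2) : ℂ) / (g1 N (‖w‖ ^ 2) : ℂ) * ((‖w‖ ^ 2 : ℝ) : ℂ) := by
    have h2 : ((‖w‖ ^ 2 : ℝ) : ℂ) = ∑ a, w a * conj (w a) := by
      rw [EuclideanSpace.norm_sq_eq]
      simp [Complex.mul_conj, Complex.normSq_eq_norm_sq]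
    rw [h2, Finset.mul_sum, dotProduct]
    exact Finset.sum_congr rfl fun a _ => by ring
  rw [e, Matrix.det_smul, Matrix.det_one_add_replicateCol_mul_replicateRow, h1, ← g1_add,
    Fintype.card_fin]
  obtain ⟨q, rfl⟩ : ∃ q, p = q + 1 := ⟨p - 1, by omega⟩
  generalize ‖w‖ ^ 2 = ρ at *
  push_cast
  field_simp
  ring

/-- the Monge-Ampere density of the model -/
def mu (N : ℕ) (w : Cn p) : ℝ := mh (fun _ => (ell N)) w

theorem mu_eq (hp : 1 ≤ p) (w : Cn p) :
    mu N w = p.factorial * (g1 N (‖w‖ ^ 2) ^ (p - 1) * g2 N (‖w‖ ^ 2)) := by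
  rw [mu, mh_same, det_hess_ell hp, Complex.ofReal_re]

theorem mu_cont : Continuous ((mu N) : Cn p → ℝ) := cont_mh fun _ => ell_smooth

theorem mu_nonneg (w : Cn p) : 0 ≤ mu N w :=
  mh_nonneg fun _ => (psd_iff ell_smooth.contDiffAt).2 fun v => (lvE_ell_bd w v).1

theorem mu_zero (hp : 1 ≤ p) {w : Cn p} (h : 2 ≤ ‖w‖ ^ 2) : mu N w = 0 := by
  rw [mu_eq hp, g2_zero_of_ge (bN_le.trans h)]; simp

theorem mu_cpt (hp : 1 ≤ p) : HasCompactSupport ((mu N) : Cn p → ℝ) :=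
  HasCompactSupport.intro (isCompact_closedBall 0 2) fun w hw => mu_zero hp (by
    rw [mem_closedBall_zero_iff, not_le] at hw
    nlinarith)

theorem int_mu (hp : 1 ≤ p) {φ : Cn p → ℝ} (hφ : Continuous φ) :
    Integrable fun w => φ w * mu N w := int_r hφ mu_cont (mu_cpt hp)

theorem int_pow_mu (hp : 1 ≤ p) (j : ℕ) : ∫ w : Cn p, gT N (‖w‖ ^ 2) ^ j * mu N w =
    p.factorial * p * (volume : Measure (Cn p)).real (ball 0 1) / (p + j) := by
  have : Nonempty (Fin p) := ⟨⟨0, hp⟩⟩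
  have hd : Module.finrank ℝ (Cn p) = 2 * p := by
    rw [finrank_real_of_complex, finrank_euclideanSpace_fin]
  have h1 := integral_fun_norm_addHaar (volume : Measure (Cn p)) fun r : ℝ =>
    gT N (r ^ 2) ^ j * (p.factorial * (g1 N (r ^ 2) ^ (p - 1) * g2 N (r ^ 2)))
  simp only [mu_eq hp]
  rw [h1, hd]
  obtain ⟨q, rfl⟩ : ∃ q, p = q + 1 := ⟨p - 1, by omega⟩
  have hq : (0 : ℝ) < q + j + 1 := by positivity
  have h2 : ∀ r : ℝ, HasDerivAt (fun r : ℝ => gT N (r ^ 2) ^ (q + j + 1))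
      (((q + j + 1 : ℕ) : ℝ) * gT N (r ^ 2) ^ (q + j) * (g2 N (r ^ 2) * (2 * r))) r := fun r => by
    have h3 : HasDerivAt (fun r : ℝ => r ^ 2) (2 * r) r := by simpa using hasDerivAt_pow 2 r
    exact ((gT_deriv (r ^ 2)).comp r h3).fun_pow (q + j + 1)
  have h3 := integral_Ioi_of_hasDerivAt_of_nonneg' (a := 0) (l := 1) (fun r _ => h2 r)
    (fun r hr => by
      have := gT_nonneg (N := N) (r ^ 2); have := g2_nonneg (N := N) (r ^ 2); have : 0 < r := hr; positivity)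
    (tendsto_const_nhds.congr' (by
      filter_upwards [eventually_ge_atTop 2] with r hr
      rw [gT_one (bN_le.trans (by nlinarith)), one_pow]))
  rw [gT_zero (by norm_num), zero_pow (by omega), sub_zero] at h3
  have h4 : ∀ r : ℝ, r ^ (2 * (q + 1) - 1) • (gT N (r ^ 2) ^ j *
      (((q + 1).factorial : ℝ) * (g1 N (r ^ 2) ^ (q + 1 - 1) * g2 N (r ^ 2)))) =
      ((q + 1).factorial / (2 * (q + j + 1))) *
      (((q + j + 1 : ℕ) : ℝ) * gT N (r ^ 2) ^ (q + j) * (g2 N (r ^ 2) * (2 * r))) := fun r => by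
    rw [show 2 * (q + 1) - 1 = 2 * q + 1 by omega, Nat.add_sub_cancel, pow_add (gT N _),
      smul_eq_mul]
    nth_rewrite 2 [← g1_mul]
    push_cast
    field_simp
    ring
  simp only [h4]
  rw [integral_const_mul, h3, nsmul_eq_mul, smul_eq_mul]
  push_cast
  field_simp
  ring

theorem int_mu_eq (hp : 1 ≤ p) : ∫ w : Cn p, mu N w = m1 p := by
  have h := int_pow_mu (N := N) hp 0
  have : (p : ℝ) ≠ 0 := by exact_mod_cast (by omega : p ≠ 0)
  simp only [pow_zero, one_mul, Nat.cast_zero, add_zero] at h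
  rw [m1_eq hp, h]
  field_simp

theorem int_gT_mu (hp : 1 ≤ p) : ∫ w : Cn p, gT N (‖w‖ ^ 2) * mu N w = p * k1 p := by
  have h := int_pow_mu (N := N) hp 1
  simp only [pow_one, Nat.cast_one] at h
  rw [h, k1, m1_eq hp]
  field_simp

theorem cont_axis (i : Fin p) : Continuous fun w : Cn p => g1 N (‖w‖ ^ 2) * ‖w i‖ ^ 2 :=
  (g1_smooth.continuous.comp sm_nsq.continuous).mul (by fun_prop)

theorem int_axis (hp : 1 ≤ p) (i : Fin p) :
    ∫ w : Cn p, g1 N (‖w‖ ^ 2) * ‖w i‖ ^ 2 * mu N w = k1 p := by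
  have h1 : ∀ j : Fin p, ∫ w : Cn p, g1 N (‖w‖ ^ 2) * ‖w j‖ ^ 2 * mu N w =
      ∫ w : Cn p, g1 N (‖w‖ ^ 2) * ‖w i‖ ^ 2 * mu N w := fun j => by
    let e : Cn p ≃ₗᵢ[ℝ] Cn p := LinearIsometryEquiv.piLpCongrLeft 2 ℝ ℂ (Equiv.swap i j)
    rw [← e.measurePreserving.integral_comp e.toHomeomorph.measurableEmbedding]
    refine integral_congr_ae (Eventually.of_forall fun w => ?_)
    have h2 : (e w) j = w i := by simp [e, LinearIsometryEquiv.piLpCongrLeft_apply]
    simp only [mu_eq hp, e.norm_map, h2]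
  have h2 : ∑ j : Fin p, ∫ w : Cn p, g1 N (‖w‖ ^ 2) * ‖w j‖ ^ 2 * mu N w = p * k1 p := by
    rw [← integral_finsetSum _ fun j _ => int_mu hp (cont_axis j), ← int_gT_mu hp]
    refine integral_congr_ae (Eventually.of_forall fun w => ?_)
    simp only [← Finset.sum_mul, ← Finset.mul_sum]
    rw [← EuclideanSpace.norm_sq_eq, g1_mul]
  simp only [h1, Finset.sum_const, Finset.card_univ, Fintype.card_fin, nsmul_eq_mul] at h2
  exact mul_left_cancel₀ (by exact_mod_cast (by omega : p ≠ 0)) h2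

/-- one step of a diagonal deformation -/
theorem int_step (hp : 1 ≤ p) {P : Cn p → Cn p} (hP : Continuous P) {t : Fin p → ℝ}
    (h : ∀ u i, ‖P u i‖ ^ 2 = t i * ‖u i‖ ^ 2) {δ : ℝ} (hδ : ∀ i, |t i - 1| ≤ δ) :
    ∫ u, (ell N (P u) - ell N u) * mu N u ≤ k1 p * ∑ i, (t i - 1) + 4 * L0 N * m1 p * δ ^ 2 := by
  have h1 : ∫ u : Cn p, ((∑ i, (t i - 1) * (g1 N (‖u‖ ^ 2) * ‖u i‖ ^ 2 * mu N u)) +
      4 * L0 N * δ ^ 2 * mu N u) = k1 p * ∑ i, (t i - 1) + 4 * L0 N * m1 p * δ ^ 2 := by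
    rw [integral_add (integrable_finsetSum _ fun i _ => (int_mu hp (cont_axis i)).const_mul _)
      (int_mu hp continuous_const),
      integral_finsetSum _ fun i _ => (int_mu hp (cont_axis i)).const_mul _, integral_const_mul]
    simp only [integral_const_mul, int_axis hp, ← Finset.sum_mul, int_mu_eq hp]
    ring
  rw [← h1]
  refine integral_mono (int_mu hp ((ell_smooth.continuous.comp hP).sub ell_smooth.continuous))
    ((integrable_finsetSum _ fun i _ => (int_mu hp (cont_axis i)).const_mul _).add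
      (int_mu hp continuous_const)) fun u => ?_
  rcases le_or_gt 2 (‖u‖ ^ 2) with h2 | h2
  · simp [mu_zero hp h2]
  have h3 : ‖P u‖ ^ 2 - ‖u‖ ^ 2 = ∑ i, (t i - 1) * ‖u i‖ ^ 2 := by
    rw [EuclideanSpace.norm_sq_eq, EuclideanSpace.norm_sq_eq, ← Finset.sum_sub_distrib]
    exact Finset.sum_congr rfl fun i _ => by rw [h]; ring
  have hδ0 : 0 ≤ δ := (abs_nonneg _).trans (hδ ⟨0, hp⟩)
  have h4 : |‖P u‖ ^ 2 - ‖u‖ ^ 2| ≤ 2 * δ := by
    rw [h3]
    refine (Finset.abs_sum_le_sum_abs _ _).trans ?_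
    have : ∑ i, |(t i - 1) * ‖u i‖ ^ 2| ≤ ∑ i, δ * ‖u i‖ ^ 2 := Finset.sum_le_sum fun i _ => by
      rw [abs_mul, abs_of_nonneg (by positivity : 0 ≤ ‖u i‖ ^ 2)]
      exact mul_le_mul_of_nonneg_right (hδ i) (by positivity)
    rw [← Finset.mul_sum, ← EuclideanSpace.norm_sq_eq] at this
    nlinarith
  have h5 := Fm_taylor (N := N) (‖u‖ ^ 2) (‖P u‖ ^ 2)
  have h6 : (‖P u‖ ^ 2 - ‖u‖ ^ 2) ^ 2 ≤ (2 * δ) ^ 2 := sq_le_sq' (abs_le.1 h4).1 (abs_le.1 h4).2
  have h7 : ∑ i, (t i - 1) * (g1 N (‖u‖ ^ 2) * ‖u i‖ ^ 2 * mu N u) =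
      g1 N (‖u‖ ^ 2) * (‖P u‖ ^ 2 - ‖u‖ ^ 2) * mu N u := by
    rw [h3, Finset.mul_sum, Finset.sum_mul]
    exact Finset.sum_congr rfl fun i _ => by ring
  simp only [h7, ← add_mul]
  refine mul_le_mul_of_nonneg_right ?_ (mu_nonneg u)
  have := mul_le_mul_of_nonneg_left h6 (zero_le_one.trans (one_le_L0 (N := N)))
  unfold ell
  linarith

/-- the model with level `c`, shape `A`, centre `y` -/
def mdl (N : ℕ) (c : ℝ) (A : Cn p →L[ℂ] Cn p) (y : Cn p) (K : ℝ) (w : Cn p) : ℝ :=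
  c * ell N (A (w - y)) + K

section mdl

variable (c : ℝ) (A : Cn p →L[ℂ] Cn p) (y : Cn p) (K : ℝ)

theorem ellA_smooth : ContDiff ℝ ∞ fun w : Cn p => ell N (A (w - y)) :=
  ell_smooth.comp (aff_smooth A y)

theorem mdl_smooth : ContDiff ℝ ∞ (mdl N c A y K) :=
  (contDiff_const.mul (ellA_smooth A y)).add contDiff_const

theorem lvE_mdl (w v : Cn p) : lvE (mdl N c A y K) w v = c * lvE (ell N) (A (w - y)) (A v) := by
  unfold mdl
  rw [lvE_add (contDiff_const.mul (ellA_smooth A y)).contDiffAt contDiffAt_const, lvE_const,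
    add_zero, lvE_const_mul (ellA_smooth A y).contDiffAt]
  have h := lvE_comp (T := fun w : Cn p => A (w - y)) (u := (ell N)) (z := w)
    ((aff_hol A y).of_le (by norm_cast)).contDiffAt
    (ell_smooth.of_le (by norm_cast)).contDiffAt v
  rw [aff_fderiv] at h
  rw [← h]; rfl

theorem lvE_mdl_bd {c : ℝ} (hc : 0 ≤ c) (w v : Cn p) : 0 ≤ lvE (mdl N c A y K) w v ∧
    lvE (mdl N c A y K) w v ≤ c * L0 N * ‖A‖ ^ 2 / max (‖A (w - y)‖ ^ 2) 1 * ‖v‖ ^ 2 := by
  rw [lvE_mdl]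
  obtain ⟨h1, h2⟩ := lvE_ell_bd (N := N) (A (w - y)) (A v)
  refine ⟨mul_nonneg hc h1, (mul_le_mul_of_nonneg_left h2 hc).trans ?_⟩
  have h3 : ‖A v‖ ^ 2 ≤ ‖A‖ ^ 2 * ‖v‖ ^ 2 := by
    rw [← mul_pow]; exact pow_le_pow_left₀ (norm_nonneg _) (A.le_opNorm v) 2
  have h4 : 0 ≤ c * (L0 N / max (‖A (w - y)‖ ^ 2) 1) := by have := one_le_L0 (N := N); positivity
  refine le_trans (le_of_eq (by ring)) ((mul_le_mul_of_nonneg_left h3 h4).trans (le_of_eq ?_))
  ring

theorem sp_mdl {c : ℝ} (hc : 0 ≤ c) : Sp univ (mdl N c A y K) :=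
  ⟨mdl_smooth c A y K, fun w _ =>
    (psd_iff (mdl_smooth c A y K).contDiffAt).2 fun v => (lvE_mdl_bd A y K hc w v).1⟩

theorem mh_mdl (w : Cn p) :
    mh (fun _ => mdl N c A y K) w = c ^ p * (jd A * mu N (A (w - y))) := by
  have h0 : hess (fun _ : Cn p => K) w = 0 := hess_cst K w
  have h1 : hess (mdl N c A y K) w = (c : ℂ) • ((mt A)ᵀ * hess (ell N) (A (w - y)) * (mt A).map conj) := by
    unfold mdl
    rw [hess_add (contDiff_const.mul (ellA_smooth A y)).contDiffAt contDiffAt_const, h0, add_zero,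
      hess_const_mul c (ellA_smooth A y).contDiffAt,
      hess_pull (T := fun w : Cn p => A (w - y)) (u := (ell N))
        (A.analyticAt _ |>.comp (analyticAt_id.sub analyticAt_const)) ell_smooth.contDiffAt,
      aff_fderiv]
  have h2 : ((mt A).map conj).det = conj (mt A).det := ((starRingEnd ℂ).map_det (mt A)).symm
  rw [mu, mh_same, mh_same, h1, Matrix.det_smul, Matrix.det_mul, Matrix.det_mul,
    Matrix.det_transpose, h2, Fintype.card_fin, mul_right_comm, Complex.mul_conj, ← ofReal_pow,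
    Complex.re_ofReal_mul, Complex.re_ofReal_mul, jd]
  ring

theorem int_mdl {A : Cn p →L[ℂ] Cn p} (hA : jd A ≠ 0) {φ : Cn p → ℝ} (hφ : Continuous φ) :
    ∫ w, φ (A (w - y)) * mh (fun _ => mdl N c A y K) w = c ^ p * ∫ u, φ u * mu N u := by
  rw [← int_lin hA y (φ := fun u => φ u * mu N u) (hφ.mul mu_cont).aestronglyMeasurable,
    ← integral_const_mul]
  refine integral_congr_ae (Eventually.of_forall fun w => ?_)
  simp only [mh_mdl]
  ring

end mdl

end

end Crest.Agent.X261.Law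
end

-- ▼ part X261/Law/Lin
section

/-!
# Row 261, package LAW (helper64), file `Lin`: diagonal paths between two shapes
-/

set_option autoImplicit false

open Set Filter Topology Complex MeasureTheory Metric
open scoped ContDiff Matrix ComplexConjugate InnerProductSpace

namespace Crest.Agent.X261.Law

open Crest.Agent.R275.Geo
open Crest.Agent.R273.Map_835 (mt)
open Crest.Agent.X261.Pole2 (jd)

noncomputable section

variable {p : ℕ}

/-- the diagonal map with entries `e^{d i / 2}` -/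
def dg (d : Fin p → ℝ) : Cn p →L[ℂ] Cn p :=
  LinearMap.toContinuousLinearMap
    { toFun := fun w => WithLp.toLp 2 fun i => ((Real.exp (d i / 2) : ℝ) : ℂ) * w i
      map_add' := fun u v => by ext i; simp [mul_add]
      map_smul' := fun a u => by ext i; simp [mul_left_comm] }

theorem dg_apply (d : Fin p → ℝ) (w : Cn p) (i : Fin p) :
    dg d w i = ((Real.exp (d i / 2) : ℝ) : ℂ) * w i := rfl

theorem nsq_dg_i (d : Fin p → ℝ) (w : Cn p) (i : Fin p) :
    ‖dg d w i‖ ^ 2 = Real.exp (d i) * ‖w i‖ ^ 2 := by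
  rw [dg_apply, norm_mul, mul_pow, Complex.norm_real, Real.norm_eq_abs, sq_abs, ← Real.exp_nat_mul]
  congr 2
  push_cast
  ring

theorem nsq_dg (d : Fin p → ℝ) (w : Cn p) :
    ‖dg d w‖ ^ 2 = ∑ i, Real.exp (d i) * ‖w i‖ ^ 2 := by
  rw [EuclideanSpace.norm_sq_eq]
  exact Finset.sum_congr rfl fun i _ => nsq_dg_i d w i

theorem dg_dg (d e : Fin p → ℝ) (w : Cn p) : dg d (dg e w) = dg (fun i => d i + e i) w := by
  ext i
  simp only [dg_apply]
  rw [add_div, Real.exp_add]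
  push_cast
  ring

theorem nsq_dg_le {d e : Fin p → ℝ} {m : ℝ} (h : ∀ i, d i ≤ m + e i) (w : Cn p) :
    ‖dg d w‖ ^ 2 ≤ Real.exp m * ‖dg e w‖ ^ 2 := by
  rw [nsq_dg, nsq_dg, Finset.mul_sum]
  refine Finset.sum_le_sum fun i _ => ?_
  rw [← mul_assoc, ← Real.exp_add]
  exact mul_le_mul_of_nonneg_right (Real.exp_le_exp.2 (h i)) (by positivity)

theorem nsq_dg_add (d : Fin p → ℝ) (m : ℝ) (w : Cn p) :
    ‖dg (fun i => m + d i) w‖ ^ 2 = Real.exp m * ‖dg d w‖ ^ 2 := by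
  rw [nsq_dg, nsq_dg, Finset.mul_sum]
  refine Finset.sum_congr rfl fun i _ => ?_
  rw [← mul_assoc, ← Real.exp_add]

theorem nsq_dg_const (m : ℝ) (w : Cn p) : ‖dg (fun _ => m) w‖ ^ 2 = Real.exp m * ‖w‖ ^ 2 := by
  rw [nsq_dg, EuclideanSpace.norm_sq_eq, Finset.mul_sum]

theorem jd_eq (A : Cn p →L[ℂ] Cn p) : jd A = ‖LinearMap.det (A : Cn p →ₗ[ℂ] Cn p)‖ ^ 2 := by
  rw [jd, Complex.normSq_eq_norm_sq,
    ← LinearMap.det_toMatrix (EuclideanSpace.basisFun (Fin p) ℂ).toBasis]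
  congr 3



theorem jd_ne_iff {A : Cn p →L[ℂ] Cn p} : jd A ≠ 0 ↔ ∀ w, A w = 0 → w = 0 := by
  rw [jd_eq, Ne, pow_eq_zero_iff two_ne_zero, norm_eq_zero, LinearMap.det_eq_zero_iff_ker_ne_bot,
    not_not, LinearMap.ker_eq_bot']
  rfl

theorem exists_low {A : Cn p →L[ℂ] Cn p} (hA : jd A ≠ 0) :
    ∃ κ > (0 : ℝ), ∀ w, κ * ‖w‖ ^ 2 ≤ ‖A w‖ ^ 2 := by
  obtain ⟨K, hK, h⟩ := (A : Cn p →ₗ[ℂ] Cn p).exists_antilipschitzWith
    (LinearMap.ker_eq_bot'.2 (jd_ne_iff.1 hA))
  have hK' : (0 : ℝ) < K := hK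
  refine ⟨1 / K ^ 2, by positivity, fun w => ?_⟩
  have h1 : ‖w‖ ≤ K * ‖A w‖ := by simpa using h.le_mul_dist w 0
  have h2 := pow_le_pow_left₀ (norm_nonneg _) h1 2
  rw [one_div_mul_eq_div, div_le_iff₀ (by positivity)]
  linarith [mul_pow (K : ℝ) ‖A w‖ 2]

/-- simultaneous diagonalisation of two shapes -/
theorem exists_diag {B B' : Cn p →L[ℂ] Cn p} (hB : jd B ≠ 0) (hB' : jd B' ≠ 0) :
    ∃ (U : Cn p →L[ℂ] Cn p) (l : Fin p → ℝ), (∀ w, ‖U w‖ ^ 2 = ‖B w‖ ^ 2) ∧
      (∀ w, ‖dg (fun i => -l i) (U w)‖ ^ 2 = ‖B' w‖ ^ 2) ∧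
      ∑ i, l i = Real.log (jd B) - Real.log (jd B') := by
  have hn : Module.finrank ℂ (Cn p) = p := finrank_euclideanSpace_fin
  let e : Cn p ≃ₗ[ℂ] Cn p := LinearEquiv.ofInjectiveEndo (B : Cn p →ₗ[ℂ] Cn p)
    (LinearMap.ker_eq_bot.1 (LinearMap.ker_eq_bot'.2 (jd_ne_iff.1 hB)))
  have he : ∀ w, e w = B w := fun _ => rfl
  let G : Cn p →ₗ[ℂ] Cn p := (B' : Cn p →ₗ[ℂ] Cn p) ∘ₗ e.symm
  have hG : ∀ w, G (B w) = B' w := fun w => by
    show B' (e.symm (B w)) = _
    rw [← he, e.symm_apply_apply]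
  have hS := G.isSymmetric_adjoint_comp_self
  set b := hS.eigenvectorBasis hn with hb
  set σ := hS.eigenvalues hn with hσ
  have h1 : ∀ u, ‖G u‖ ^ 2 = ∑ i, σ i * ‖b.repr u i‖ ^ 2 := fun u => by
    have e1 : ⟪u, (LinearMap.adjoint G ∘ₗ G) u⟫_ℂ = ((‖G u‖ ^ 2 : ℝ) : ℂ) := by
      rw [LinearMap.comp_apply, LinearMap.adjoint_inner_right, inner_self_eq_norm_sq_to_K]
      simp
    rw [← b.repr.inner_map_map, PiLp.inner_apply] at e1
    have e2 : ∀ i, ⟪b.repr u i, b.repr ((LinearMap.adjoint G ∘ₗ G) u) i⟫_ℂ =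
        ((σ i * ‖b.repr u i‖ ^ 2 : ℝ) : ℂ) := fun i => by
      rw [hb, hS.eigenvectorBasis_apply_self_apply hn, ← smul_eq_mul, inner_smul_right,
        inner_self_eq_norm_sq_to_K]
      simp [hσ]
    simp only [e2] at e1
    exact_mod_cast e1.symm
  have h2 : ∀ i, 0 < σ i := fun i => by
    have e1 := h1 (b i)
    rw [b.repr_self, Finset.sum_eq_single i (fun j _ hj => by simp [hj])
      (by simp)] at e1
    simp only [PiLp.single_apply, if_true, norm_one, one_pow, mul_one] at e1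
    rw [← e1]
    refine pow_pos (norm_pos_iff.2 fun h0 => ?_) 2
    have e2 : e.symm (b i) = 0 := jd_ne_iff.1 hB' _ h0
    have e3 : b i = 0 := by simpa using congrArg e e2
    simpa [e3] using b.orthonormal.1 i
  have h3 : jd B' = (∏ i, σ i) * jd B := by
    have e1 : (B' : Cn p →ₗ[ℂ] Cn p) = G ∘ₗ (B : Cn p →ₗ[ℂ] Cn p) :=
      LinearMap.ext fun w => (hG w).symm
    have e2 := G.normDet_sq
    rw [hS.det_eq_prod_eigenvalues hn, LinearMap.normDet_eq_norm_det] at e2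
    have e3 : ‖LinearMap.det G‖ ^ 2 = ∏ i, σ i := by exact_mod_cast e2
    rw [jd_eq, jd_eq, e1, LinearMap.det_comp, norm_mul, mul_pow, e3]
  refine ⟨b.repr.toContinuousLinearEquiv ∘L B, fun i => -Real.log (σ i), fun w => ?_,
    fun w => ?_, ?_⟩
  · exact congrArg (· ^ 2) (b.repr.norm_map (B w))
  · rw [nsq_dg, ← hG, h1]
    refine Finset.sum_congr rfl fun i _ => ?_
    rw [neg_neg, Real.exp_log (h2 i)]
    rfl
  · rw [h3, Real.log_mul (Finset.prod_pos fun i _ => h2 i).ne' hB,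
      Real.log_prod fun i _ => (h2 i).ne', Finset.sum_neg_distrib]
    ring

/-- the lower order term is small on thin tubes -/
theorem small (hp : 1 ≤ p) {K : ℝ} (hK : 0 ≤ K) (y : Cn p) {η : ℝ} (hη : 0 < η) :
    ∃ r > (0 : ℝ), ∀ (g Λ : Cn p → ℝ) (b : ℝ), (∀ w, 0 ≤ g w) → (∀ w, g w ≤ b) →
      (∀ w, r ≤ ‖w - y‖ → g w = 0) → (∀ w, 0 ≤ Λ w) → (∀ w, Λ w * ‖w - y‖ ^ 2 ≤ K) →
      ∫ w, g w * (1 + Λ w) ^ (p - 1) ≤ b * η := by
  have : Nonempty (Fin p) := ⟨⟨0, hp⟩⟩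
  have hd : Module.finrank ℝ (Cn p) = 2 * p := by
    rw [finrank_real_of_complex, finrank_euclideanSpace_fin]
  set ψ : Cn p → ℝ := fun w => (1 + K / ‖w‖ ^ 2) ^ (p - 1) with hψ
  have hψ0 : ∀ w, 0 ≤ ψ w := fun w => by positivity
  have hm : Measurable ψ := by fun_prop
  have h0 : ∀ᵐ w : Cn p, w ≠ 0 := by simp [ae_iff]
  have h1 : IntegrableOn ψ (ball 0 1) := by
    refine integrableOn_ball_of_norm_le_rpow (C := (1 + K) ^ (p - 1))
      (α := ((2 * (p - 1) : ℕ) : ℝ)) (by omega) (by rw [hd]; exact_mod_cast (by omega)) ?_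
      hm.aestronglyMeasurable
    filter_upwards [ae_restrict_of_ae h0, ae_restrict_mem measurableSet_ball] with w e1 e2
    rw [mem_ball_zero_iff] at e2
    have e3 : 0 < ‖w‖ ^ 2 := by positivity
    rw [Real.norm_of_nonneg (hψ0 w), Real.rpow_neg (norm_nonneg _), Real.rpow_natCast, pow_mul,
      ← div_eq_mul_inv, ← div_pow]
    refine pow_le_pow_left₀ (by positivity) ?_ _
    rw [add_div]
    have e4 : ‖w‖ ^ 2 ≤ 1 := pow_le_one₀ (norm_nonneg _) e2.le
    linarith [one_le_one_div e3 e4]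
  have h2 : Tendsto (fun r : ℝ => ∫ w in ball (0 : Cn p) r, ψ w ∂volume.restrict (ball 0 1))
      (𝓝[>] 0) (𝓝 0) := by
    refine Integrable.tendsto_setIntegral_nhds_zero h1 ?_
    have e1 : Tendsto (fun r : ℝ => ENNReal.ofReal (r ^ (2 * p)) *
        (volume : Measure (Cn p)) (ball 0 1)) (𝓝[>] 0) (𝓝 0) := by
      have e2 : Tendsto (fun r : ℝ => ENNReal.ofReal (r ^ (2 * p))) (𝓝[>] 0) (𝓝 0) := by
        have e3 : Continuous fun r : ℝ => ENNReal.ofReal (r ^ (2 * p)) :=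
          ENNReal.continuous_ofReal.comp (continuous_pow _)
        have e4 := (e3.tendsto 0).mono_left (nhdsWithin_le_nhds (s := Ioi 0))
        rwa [zero_pow (by omega), ENNReal.ofReal_zero] at e4
      simpa using ENNReal.Tendsto.mul_const e2 (Or.inr measure_ball_lt_top.ne)
    refine tendsto_of_tendsto_of_tendsto_of_le_of_le' tendsto_const_nhds e1
      (Eventually.of_forall fun _ => zero_le) ?_
    filter_upwards [self_mem_nhdsWithin] with r hr
    rw [← hd, ← Measure.addHaar_ball_of_pos _ 0 hr]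
    exact Measure.restrict_apply_le _ _
  obtain ⟨r, ⟨e1, e2⟩, e3⟩ := (((h2.eventually (gt_mem_nhds hη)).and
    (mem_nhdsWithin_of_mem_nhds (gt_mem_nhds one_pos))).and self_mem_nhdsWithin).exists
  rw [Measure.restrict_restrict measurableSet_ball,
    inter_eq_left.2 (ball_subset_ball (le_of_lt e2))] at e1
  have h3 : Integrable ((ball (0 : Cn p) r).indicator ψ) :=
    (integrable_indicator_iff measurableSet_ball).2 (h1.mono_set (ball_subset_ball (le_of_lt e2)))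
  refine ⟨r, e3, fun g Λ b hg0 hgb hgr hΛ0 hΛ => ?_⟩
  have hb : 0 ≤ b := (hg0 0).trans (hgb 0)
  rw [← integral_add_right_eq_self _ y]
  refine (integral_mono_of_nonneg (Eventually.of_forall fun w => ?_) (h3.const_mul b) ?_).trans ?_
  · exact mul_nonneg (hg0 _) (pow_nonneg (by linarith [hΛ0 (w + y)]) _)
  · filter_upwards [h0] with w hw
    by_cases h4 : w ∈ ball (0 : Cn p) r
    · rw [indicator_of_mem h4]
      have e4 : 0 < ‖w‖ ^ 2 := by positivity
      have e5 := hΛ (w + y)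
      rw [add_sub_cancel_right, ← le_div_iff₀ e4] at e5
      exact mul_le_mul (hgb _) (pow_le_pow_left₀ (by linarith [hΛ0 (w + y)]) (by linarith) _)
        (pow_nonneg (by linarith [hΛ0 (w + y)]) _) hb
    · rw [indicator_of_notMem h4, hgr _ (by simpa using h4)]
      simp
  · rw [integral_const_mul, integral_indicator measurableSet_ball]
    exact mul_le_mul_of_nonneg_left e1.le hb

end

end Crest.Agent.X261.Law
end

-- ▼ part X261/Law/Step
section

/-!
# Row 261, package LAW (helper64), file `Step`: the energy along a diagonal path of obstacles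
-/

set_option autoImplicit false
set_option linter.unusedSectionVars false

open Set Filter Topology Complex MeasureTheory Metric
open scoped ContDiff

namespace Crest.Agent.X261.Law

open Crest.Agent.R275.Geo
open Crest.Agent.R281.Kp_487 (KP)
open Crest.Agent.R257.HoB_843 (lvE)
open Crest.Agent.X261.BT
open Crest.Agent.X261.Pole2 (jd m1 k1 k1_pos m1_pos aff_smooth subdiv TB lift Vol lift_of_mem
  lift_of_not lift_nonneg)

noncomputable section

variable {p : ℕ}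

/-- the shape at time `τ` -/
def sh (U : Cn p →L[ℂ] Cn p) (ν : Fin p → ℝ) (s τ : ℝ) : Cn p →L[ℂ] Cn p :=
  dg (fun i => s - τ * ν i) ∘L U

section flat

variable {U : Cn p →L[ℂ] Cn p} {ν : Fin p → ℝ} {s a b c K : ℝ} {N : ℕ} {y : Cn p}

theorem sh_apply (τ : ℝ) (w : Cn p) : sh U ν s τ w = dg (fun i => s - τ * ν i) (U w) := rfl

theorem sh_step (a b : ℝ) (w : Cn p) :
    sh U ν s a w = dg (fun i => (b - a) * ν i) (sh U ν s b w) := by
  rw [sh_apply, sh_apply, dg_dg]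
  congr 2
  funext i
  ring

theorem le_sum (hν : ∀ i, 0 ≤ ν i) (i : Fin p) : ν i ≤ ∑ j, ν j :=
  Finset.single_le_sum (fun j _ => hν j) (Finset.mem_univ i)

theorem sh_anti (hν : ∀ i, 0 ≤ ν i) (hab : a ≤ b) (w : Cn p) :
    ‖sh U ν s b w‖ ^ 2 ≤ ‖sh U ν s a w‖ ^ 2 := by
  have := nsq_dg_le (d := fun i => s - b * ν i) (e := fun i => s - a * ν i) (m := 0)
    (fun i => by nlinarith [hν i]) (U w)
  rwa [Real.exp_zero, one_mul] at this

theorem sh_le (hν : ∀ i, 0 ≤ ν i) (hab : a ≤ b) (w : Cn p) :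
    ‖sh U ν s a w‖ ^ 2 ≤ Real.exp ((b - a) * ∑ j, ν j) * ‖sh U ν s b w‖ ^ 2 :=
  nsq_dg_le (fun i => by nlinarith [le_sum hν i]) (U w)

theorem sh_zero (w : Cn p) : ‖sh U ν s 0 w‖ ^ 2 = Real.exp s * ‖U w‖ ^ 2 := by
  rw [sh_apply, ← nsq_dg_const]
  simp

theorem sh_low (hν : ∀ i, 0 ≤ ν i) (h0 : 0 ≤ b) (h1 : b ≤ 1) (w : Cn p) :
    Real.exp s * ‖U w‖ ^ 2 ≤ Real.exp (∑ j, ν j) * ‖sh U ν s b w‖ ^ 2 := by
  have h2 := sh_le (U := U) (s := s) hν h0 w
  rw [sh_zero] at h2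
  refine h2.trans (mul_le_mul_of_nonneg_right (Real.exp_le_exp.2 ?_) (by positivity))
  nlinarith [Finset.sum_nonneg fun j (_ : j ∈ Finset.univ) => hν j]

theorem sh_norm (hν : ∀ i, 0 ≤ ν i) (h0 : 0 ≤ b) : ‖sh U ν s b‖ ^ 2 ≤ Real.exp s * ‖U‖ ^ 2 := by
  have h1 : ‖sh U ν s b‖ ≤ Real.sqrt (Real.exp s * ‖U‖ ^ 2) :=
    ContinuousLinearMap.opNorm_le_bound _ (Real.sqrt_nonneg _) fun w => by
      refine (pow_le_pow_iff_left₀ (norm_nonneg _) (by positivity) two_ne_zero).1 ?_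
      rw [mul_pow, Real.sq_sqrt (by positivity), mul_assoc, ← mul_pow]
      refine ((sh_anti hν h0 w).trans_eq (sh_zero w)).trans ?_
      exact mul_le_mul_of_nonneg_left (pow_le_pow_left₀ (norm_nonneg _) (U.le_opNorm w) 2)
        (Real.exp_pos s).le
  exact (pow_le_pow_left₀ (norm_nonneg _) h1 2).trans_eq (Real.sq_sqrt (by positivity))

theorem jd_sh (hU : jd U ≠ 0) (τ : ℝ) : jd (sh U ν s τ) ≠ 0 :=
  jd_ne_iff.2 fun w hw => jd_ne_iff.1 hU w (by
    have h := dg_dg (fun i => -(s - τ * ν i)) (fun i => s - τ * ν i) (U w)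
    rw [← sh_apply, hw, map_zero] at h
    have h1 := nsq_dg_const 0 (U w)
    simp only [neg_add_cancel] at h
    rw [← h, Real.exp_zero, one_mul] at h1
    simpa using h1.symm)

theorem ob_anti (hν : ∀ i, 0 ≤ ν i) (hc : 0 ≤ c) (hab : a ≤ b) (w : Cn p) :
    mdl N c (sh U ν s b) y K w ≤ mdl N c (sh U ν s a) y K w :=
  add_le_add_left (mul_le_mul_of_nonneg_left (Fm_mono (sh_anti hν hab _)) hc) _

theorem ob_le (hν : ∀ i, 0 ≤ ν i) (hc : 0 ≤ c) (hab : a ≤ b) (w : Cn p) :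
    mdl N c (sh U ν s a) y K w - mdl N c (sh U ν s b) y K w ≤ c * ((b - a) * ∑ j, ν j) := by
  have h1 := Fm_mono (N := N) (sh_le (U := U) (s := s) hν hab (w - y))
  have h2 := Fm_shift (N := N) (h := (b - a) * ∑ j, ν j) (mul_nonneg (sub_nonneg.2 hab)
    (Finset.sum_nonneg fun j _ => hν j)) (ρ := ‖sh U ν s b (w - y)‖ ^ 2) (by positivity)
  have h3 := mul_le_mul_of_nonneg_left (show Fm N (‖sh U ν s a (w - y)‖ ^ 2) -
    Fm N (‖sh U ν s b (w - y)‖ ^ 2) ≤ (b - a) * ∑ j, ν j by linarith) hc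
  unfold mdl ell
  linarith

theorem mh_cpt (hp : 1 ≤ p) {B : Cn p →L[ℂ] Cn p} (hB : jd B ≠ 0) :
    HasCompactSupport (mh fun _ => mdl N c B y K) := by
  obtain ⟨κ, hκ, h⟩ := exists_low hB
  refine HasCompactSupport.intro (isCompact_closedBall y (1 + 2 / κ)) fun w hw => ?_
  rw [mem_closedBall_iff_norm, not_le] at hw
  have h1 : 0 ≤ 2 / κ := by positivity
  have h2 : 2 / κ ≤ ‖w - y‖ ^ 2 := by nlinarith
  rw [div_le_iff₀ hκ] at h2
  rw [mh_mdl, mu_zero hp (by linarith [h (w - y)])]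
  simp

theorem exp_bd {x m : ℝ} (h0 : 0 ≤ x) (h : x ≤ m) :
    Real.exp x - 1 ≤ x * Real.exp m ∧ Real.exp x - 1 ≤ x + x ^ 2 * Real.exp m := by
  have h1 := Real.add_one_le_exp (-x)
  have h2 : Real.exp (-x) * Real.exp x = 1 := by rw [← Real.exp_add]; simp
  have h3 := Real.exp_pos x
  have h4 : Real.exp x - 1 ≤ x * Real.exp x := by nlinarith
  have h5 := mul_le_mul_of_nonneg_left (Real.exp_le_exp.2 h) h0
  have h6 := mul_le_mul_of_nonneg_left (h4.trans h5) h0
  exact ⟨h4.trans h5, by nlinarith⟩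

/-- second order constant of the path -/
def C2 (N p : ℕ) (m : ℝ) : ℝ :=
  k1 p * (p * m ^ 2 * Real.exp m) + 4 * L0 N * m1 p * (m * Real.exp m) ^ 2

theorem int_ob (hp : 1 ≤ p) (hU : jd U ≠ 0) (hν : ∀ i, 0 ≤ ν i) (hc : 0 ≤ c) (hab : a ≤ b)
    (h1 : b - a ≤ 1) :
    ∫ w, (mdl N c (sh U ν s a) y K w - mdl N c (sh U ν s b) y K w) *
        mh (fun _ => mdl N c (sh U ν s b) y K) w ≤
      c ^ (p + 1) * (k1 p * (∑ j, ν j) * (b - a) + C2 N p (∑ j, ν j) * (b - a) ^ 2) := by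
  set m := ∑ j, ν j with hm
  set d := b - a with hd
  have hd0 : 0 ≤ d := sub_nonneg.2 hab
  have hm0 : 0 ≤ m := Finset.sum_nonneg fun j _ => hν j
  have h2 : ∀ i, 0 ≤ d * ν i ∧ d * ν i ≤ m := fun i =>
    ⟨mul_nonneg hd0 (hν i), by nlinarith [le_sum hν i, hν i]⟩
  have h3 := int_mdl (N := N) c y K (jd_sh (ν := ν) (s := s) hU b)
    (φ := fun u => c * (ell N (dg (fun i => d * ν i) u) - ell N u))
    (continuous_const.mul ((ell_smooth.continuous.comp (dg _).continuous).sub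
      ell_smooth.continuous))
  have h4 := int_step (N := N) hp (dg fun i => d * ν i).continuous (nsq_dg_i fun i => d * ν i)
    (δ := d * (m * Real.exp m)) fun i => by
      rw [abs_of_nonneg (sub_nonneg.2 (Real.one_le_exp (h2 i).1))]
      refine (exp_bd (h2 i).1 (h2 i).2).1.trans ?_
      rw [mul_assoc]
      exact mul_le_mul_of_nonneg_left
        (mul_le_mul_of_nonneg_right (le_sum hν i) (Real.exp_pos _).le) hd0
  have h5 : ∑ i, (Real.exp (d * ν i) - 1) ≤ d * m + p * m ^ 2 * Real.exp m * d ^ 2 := by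
    have e1 : ∀ i, Real.exp (d * ν i) - 1 ≤ d * ν i + m ^ 2 * Real.exp m * d ^ 2 := fun i => by
      refine (exp_bd (h2 i).1 (h2 i).2).2.trans ?_
      have e2 : (d * ν i) ^ 2 ≤ (d * m) ^ 2 :=
        pow_le_pow_left₀ (h2 i).1 (mul_le_mul_of_nonneg_left (le_sum hν i) hd0) 2
      nlinarith [mul_le_mul_of_nonneg_right e2 (Real.exp_pos m).le]
    refine (Finset.sum_le_sum fun i _ => e1 i).trans (le_of_eq ?_)
    rw [Finset.sum_add_distrib, ← Finset.mul_sum, Finset.sum_const, Finset.card_univ,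
      Fintype.card_fin, nsmul_eq_mul]
    ring
  have h6 : ∀ w, mdl N c (sh U ν s a) y K w - mdl N c (sh U ν s b) y K w =
      c * (ell N (dg (fun i => d * ν i) (sh U ν s b (w - y))) - ell N (sh U ν s b (w - y))) :=
    fun w => by rw [mdl, mdl, sh_step a b]; ring
  simp only [h6]
  rw [h3]
  simp only [mul_assoc c]
  rw [integral_const_mul, ← mul_assoc, ← pow_succ]
  refine mul_le_mul_of_nonneg_left (h4.trans ?_) (by positivity)
  have := mul_le_mul_of_nonneg_left h5 (k1_pos hp).le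
  unfold C2
  nlinarith

end flat

variable {n : ℕ} {M : Type} [TopologicalSpace M] {A : Atl n M} [MeasurableSpace M] [BorelSpace M]
  [Countable A.ι] [T2Space M] {H : KP A} {T : Set M} {π : M → Cn p} {V : ℝ}

/-- **the path of obstacles** -/
theorem path (hH : H.Pos) (hS : Slow H) (hT : TB A T π) (hV : Vol H T π V) (hV0 : 0 ≤ V)
    (hp : 1 ≤ p) {y : Cn p} (hy : ‖y‖ < 1) {U : Cn p →L[ℂ] Cn p} (hU : jd U ≠ 0)
    {ν : Fin p → ℝ} (hν : ∀ i, 0 ≤ ν i) (N : ℕ) {c : ℝ} (hc : 0 ≤ c) {η : ℝ} (hη : 0 < η) :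
    ∃ r > (0 : ℝ), ∀ (s K : ℝ), ∀ f ∈ QQ H,
      (∀ w, r ≤ ‖w - y‖ → 0 ≤ mdl N c (sh U ν s 1) y K w) →
      (∀ x ∈ T, f x ≤ mdl N c (sh U ν s 0) y K (π x)) →
      ∃ g ∈ QQ H, g ≤ f ∧ (∀ x ∈ T, g x ≤ mdl N c (sh U ν s 1) y K (π x)) ∧
        -En H g ≤ -En H f + V * k1 p * c ^ (p + 1) * ∑ j, ν j + η := by
  set m := ∑ j, ν j with hm
  have hm0 : 0 ≤ m := Finset.sum_nonneg fun j _ => hν j
  have hL := one_le_L0 (N := N)
  have hρ : (1 + ‖y‖) / 2 < 1 := by linarith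
  obtain ⟨C, hC, hvol⟩ := hV _ hρ
  obtain ⟨κ, hκ, hlow⟩ := exists_low hU
  obtain ⟨r, hr, hsm⟩ := small hp (K := c * L0 N * ‖U‖ ^ 2 * Real.exp m / κ) (by positivity) y
    (η := η / (C * (c * m) + 1)) (by positivity)
  refine ⟨min r ((1 - ‖y‖) / 2), lt_min hr (by linarith), fun s K f hf h1 h0 => ?_⟩
  set O : ℝ → Cn p → ℝ := fun τ => mdl N c (sh U ν s τ) y K with hO
  set G : ℝ → Cn p → ℝ := fun τ w => min (O τ w) 0 with hG
  have hOc : ∀ τ, Continuous (O τ) := fun τ => (mdl_smooth c _ y K).continuous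
  have hGc : ∀ τ, Continuous (G τ) := fun τ => (hOc τ).min continuous_const
  have hG0 : ∀ τ ≤ 1, ∀ w, min r ((1 - ‖y‖) / 2) ≤ ‖w - y‖ → G τ w = 0 := fun τ hτ w hw =>
    min_eq_right ((h1 w hw).trans (ob_anti hν hc hτ w))
  have hG1 : ∀ τ ≤ 1, ∀ w, (1 + ‖y‖) / 2 < ‖w‖ → G τ w = 0 := fun τ hτ w hw =>
    hG0 τ hτ w ((min_le_right _ _).trans (by linarith [norm_le_norm_add_norm_sub' w y]))
  set v : ℝ → M → ℝ := fun τ x => min (f x) (lift T π (G τ) x) with hv
  have hvc : ∀ τ ≤ 1, Continuous (v τ) := fun τ hτ =>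
    (QQ.cont hf).min (hT.tst_lift' (hGc τ) hρ (hG1 τ hτ)).cont
  have hvs : ∀ τ ≤ 1, HasCompactSupport (v τ) := fun τ hτ => by
    have e1 := (hT.tst_lift' (hGc τ) hρ (hG1 τ hτ)).cpt
    refine HasCompactSupport.intro (hf.1.cpt.isCompact.union e1.isCompact) fun x hx => ?_
    simp only [hv]
    rw [image_eq_zero_of_notMem_tsupport fun h => hx (Or.inl h),
      image_eq_zero_of_notMem_tsupport (f := lift T π (G τ)) fun h => hx (Or.inr h), min_self]
  have hob : ∀ τ ≤ 1, Obs H (v τ) := fun τ hτ => hS.obs0 (pos_semi hH) (hvc τ hτ) (hvs τ hτ)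
  have hpp : ∀ τ ≤ 1, PP H (env H (v τ)) := fun τ hτ => hS.pp_env hH (hvc τ hτ) (hvs τ hτ)
  have hle : ∀ τ ≤ 1, ∀ x, env H (v τ) x ≤ v τ x := fun τ hτ => (hob τ hτ).env_le (pos_semi hH)
  have hvO : ∀ τ, ∀ x ∈ T, v τ x ≤ G τ (π x) := fun τ x hx =>
    (min_le_right _ _).trans_eq (lift_of_mem hx)
  have key : ∀ a b, 0 ≤ a → a ≤ b → b ≤ 1 → b - a ≤ 1 →
      En H (env H (v a)) - En H (env H (v b)) ≤ (V * k1 p * c ^ (p + 1) * m + η) * (b - a) +
        V * c ^ (p + 1) * C2 N p m * (b - a) ^ 2 := by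
    intro a b ha hab hb hd
    have ha1 := hab.trans hb
    set g : Cn p → ℝ := fun w => G a w - G b w with hg
    have hgc : Continuous g := (hGc a).sub (hGc b)
    have hOO : ∀ w, O b w ≤ O a w := ob_anti hν hc hab
    have hg0 : ∀ w, 0 ≤ g w := fun w => sub_nonneg.2 (min_le_min_right _ (hOO w))
    have hgO : ∀ w, g w ≤ O a w - O b w := fun w => by
      simp only [hg, hG]
      rcases le_total (O b w) 0 with h | h
      · rw [min_eq_left h]; linarith [min_le_left (O a w) 0]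
      · rw [min_eq_right h]; linarith [min_le_right (O a w) 0, hOO w]
    have hg1 : ∀ w, (1 + ‖y‖) / 2 < ‖w‖ → g w = 0 := fun w hw => by
      simp only [hg, hG1 a ha1 w hw, hG1 b hb w hw, sub_self]
    have hF : QP H T fun x => O b (π x) := hT.qp (pos_semi hH) (sp_mdl _ y K hc)
    have hint := (MX_rad hT.op fun _ => hF).int (hT.tst_lift' hgc hρ hg1)
    have hSo : IsOpen (T ∩ (fun x => f x - O b (π x)) ⁻¹' Ioi 0) :=
      ((QQ.cont hf).continuousOn.sub hF.cont).isOpen_inter_preimage hT.op isOpen_Ioi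
    have e1 := Er_step_loc' hH (g := lift T π g) (hob b hb) (hpp a ha1).qp
      ((hpp a ha1).ce0.trans (CE.zero_iff.2 (hvs b hb)).symm) hF
      (fun x hx => (hvO b x hx).trans (min_le_left _ _)) hSo.measurableSet inter_subset_left
      (fun x hx => by
        have e : O b (π x) < f x := sub_pos.1 hx.2
        refine le_min e.le ?_
        rw [lift_of_mem hx.1]
        exact le_min le_rfl (e.le.trans (QQ.le hf x)))
      hint.integrableOn (lift_nonneg hg0)
      (fun x hx => by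
        have e : env H (v a) x ≤ f x := (hle a ha1 x).trans (min_le_left _ _)
        refine le_min e (e.trans ?_)
        by_cases hxT : x ∈ T
        · rw [lift_of_mem hxT]
          exact le_min (sub_nonpos.1 (not_lt.1 fun h => hx ⟨hxT, h⟩)) (QQ.le hf x)
        · rw [lift_of_not hxT]; exact QQ.le hf x)
      (fun x hx => by
        have e : O b (π x) < f x := sub_pos.1 hx.2
        have e' : G b (π x) ≤ v b x := le_min ((min_le_left _ _).trans e.le) (lift_of_mem hx.1).ge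
        rw [lift_of_mem hx.1]
        exact sub_le_sub ((hle a ha1 x).trans (hvO a x hx.1)) e')
    have e2 := setIntegral_le_integral (s := T ∩ (fun x => f x - O b (π x)) ⁻¹' Ioi 0) hint
      (Eventually.of_forall (lift_nonneg hg0))
    set Λ : Cn p → ℝ := fun w =>
      c * L0 N * ‖sh U ν s b‖ ^ 2 / max (‖sh U ν s b (w - y)‖ ^ 2) 1 with hΛ
    have hΛ0 : ∀ w, 0 ≤ Λ w := fun w => by positivity
    have e3 := (hvol T T _ (O b) g Λ hF hT.op (subset_inter subset_rfl subset_rfl)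
      (fun _ _ => rfl) (sp_mdl _ y K hc)
      (continuous_const.div (((aff_smooth _ y).continuous.norm.pow 2).max continuous_const)
        fun w => by positivity) hΛ0 (fun w u => (lvE_mdl_bd _ y K hc w u).2) hgc hg0 hg1
      fun x hx _ => hx).2
    have hmh : ∀ w, 0 ≤ mh (fun _ => O b) w := fun w =>
      mh_nonneg fun _ => (sp_mdl (N := N) _ y K hc).2 w (mem_univ _)
    have e4 : ∫ w, g w * mh (fun _ => O b) w ≤ _ :=
      (integral_mono_of_nonneg (Eventually.of_forall fun w => mul_nonneg (hg0 w) (hmh w))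
        (int_r ((hOc a).sub (hOc b)) (cont_mh fun _ => mdl_smooth c _ y K)
          (mh_cpt hp (jd_sh hU b)))
        (Eventually.of_forall fun w => mul_le_mul_of_nonneg_right (hgO w) (hmh w))).trans
        (int_ob hp hU hν hc hab hd)
    have e5 := hsm g Λ (c * ((b - a) * m)) hg0 (fun w => (hgO w).trans (ob_le hν hc hab w))
      (fun w hw => by
        have e := (min_le_left r ((1 - ‖y‖) / 2)).trans hw
        simp only [hg, hG0 a ha1 w e, hG0 b hb w e, sub_self]) hΛ0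
      (fun w => by
        have k1 := sh_low (U := U) (s := s) hν (ha.trans hab) hb (w - y)
        have k2 := sh_norm (U := U) (s := s) hν (ha.trans hab)
        have k3 := mul_le_mul_of_nonneg_left (hlow (w - y)) (Real.exp_pos s).le
        have k4 := mul_le_mul_of_nonneg_left (le_max_left (‖sh U ν s b (w - y)‖ ^ 2) 1)
          (Real.exp_pos m).le
        simp only [hΛ]
        rw [div_mul_eq_mul_div, div_le_div_iff₀ (by positivity) hκ]
        have k5 : ‖sh U ν s b‖ ^ 2 * (κ * ‖w - y‖ ^ 2) ≤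
            ‖U‖ ^ 2 * (Real.exp m * max (‖sh U ν s b (w - y)‖ ^ 2) 1) := by
          refine (mul_le_mul_of_nonneg_right k2 (by positivity)).trans ?_
          rw [mul_comm (Real.exp s), mul_assoc]
          exact mul_le_mul_of_nonneg_left (by linarith) (by positivity)
        have k6 := mul_le_mul_of_nonneg_left k5 (show 0 ≤ c * L0 N by positivity)
        linarith)
    have e6 : C * (c * ((b - a) * m) * (η / (C * (c * m) + 1))) ≤ η * (b - a) := by
      have k1 : C * (c * m) / (C * (c * m) + 1) ≤ 1 :=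
        div_le_one_of_le₀ (by linarith) (by positivity)
      have k2 := mul_le_mul_of_nonneg_left k1 (mul_nonneg hη.le (sub_nonneg.2 hab))
      refine le_trans (le_of_eq ?_) (k2.trans_eq (mul_one _))
      ring
    have e7 := mul_le_mul_of_nonneg_left e4 hV0
    have e8 := mul_le_mul_of_nonneg_left e5 hC
    rw [En_sub hH (hpp a ha1) (hpp b hb)]
    unfold MAo at e1 e3
    linarith
  have fin := subdiv (F := fun τ => -En H (env H (v τ)) - (V * k1 p * c ^ (p + 1) * m + η) * τ)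
    (C := V * c ^ (p + 1) * C2 N p m) zero_le_one fun a b ha hab hb hd => by
      linarith [key a b ha hab hb hd]
  have hf0 : En H f ≤ En H (env H (v 0)) :=
    En_mono hH hf.1 (hpp 0 zero_le_one) (le_env hf.1.qp fun x => le_min le_rfl (by
      by_cases hxT : x ∈ T
      · rw [lift_of_mem hxT]; exact le_min (h0 x hxT) (QQ.le hf x)
      · rw [lift_of_not hxT]; exact QQ.le hf x))
  have hgf : env H (v 1) ≤ f := fun x => (hle 1 le_rfl x).trans (min_le_left _ _)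
  refine ⟨env H (v 1), ⟨hpp 1 le_rfl, hgf.trans hf.2⟩, hgf, fun x hx =>
    ((hle 1 le_rfl x).trans (hvO 1 x hx)).trans (min_le_left _ _), ?_⟩
  simp only [mul_one, mul_zero] at fin
  linarith

end

end Crest.Agent.X261.Law
end

-- ▼ part X261/Law/Main

/-!
# Row 261, package LAW (helper64), file `Main`: the change of shape of a pole

`Shp H T π y B C F` : the constraints `F s h` look like the ellipsoids `‖B (π - y)‖² ≤ e^{-s}` of
the tube, up to `C` in the depth.  `law` : the renormalised energies of two such families differ by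
`k c^{p+1} log (jd B / jd B')` up to `mc (C + C')`.
-/

set_option autoImplicit false
set_option linter.unusedSectionVars false

open Set Filter Topology Complex MeasureTheory Metric

namespace Crest.Agent.X261.Law

open Crest.Agent.R275.Geo
open Crest.Agent.R281.Kp_487 (KP)
open Crest.Agent.X261.BT Crest.Agent.X261.Pole
open Crest.Agent.X261.Pole2 (jd k1 k1_pos TB Vol)

noncomputable section

variable {n p : ℕ} {M : Type} [TopologicalSpace M] {A : Atl n M}

/-- the sharp shape of a family of constraints -/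
structure Shp (H : KP A) (T : Set M) (π : M → Cn p) (y : Cn p) (B : Cn p →L[ℂ] Cn p) (C : ℝ)
    (F : ℝ → ℝ → Set (M → ℝ)) : Prop where
  inn : ∀ e > (0 : ℝ), ∀ᶠ s in atTop, ∀ h, 0 ≤ h → ∀ f : M → ℝ,
    (∀ x ∈ T, ‖B (π x - y)‖ ^ 2 ≤ Real.exp (e - s) → f x ≤ -h - C) → f ∈ F s h
  out : ∀ e > (0 : ℝ), ∀ c c' : ℝ, 0 < c → c < c' → ∃ r > (0 : ℝ), ∀ᶠ s in atTop, ∀ f ∈ QQ H,
    f ∈ F s (c * s) → ∀ x ∈ T, ‖π x - y‖ ≤ r →
      f x ≤ -(c * s) + C + c' * Real.log (max (‖B (π x - y)‖ ^ 2 * Real.exp (s + e)) 1)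

variable {H : KP A} {T : Set M} {π : M → Cn p} {V C C' : ℝ} {y : Cn p}
  {B B' : Cn p →L[ℂ] Cn p} {F : ℝ → ℝ → Set (M → ℝ)}

theorem Shp.mono (h : Shp H T π y B C F) (hC : C ≤ C') : Shp H T π y B C' F :=
  ⟨fun e he => (h.inn e he).mono fun _ h1 a ha f hf => h1 a ha f fun x hx h2 =>
      (hf x hx h2).trans (by linarith),
    fun e he c c' hc hcc => (h.out e he c c' hc hcc).imp fun _ h1 => ⟨h1.1, h1.2.mono
      fun _ h2 f hf h3 x hx h4 => (h2 f hf h3 x hx h4).trans (by linarith)⟩⟩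

variable [MeasurableSpace M] [BorelSpace M] [Countable A.ι] [T2Space M]

/-- **LAW**, one inequality -/
theorem law (hH : H.Pos) (hS : Slow H) (hT : TB A T π) (hV : Vol H T π V) (hp : 1 ≤ p)
    (hy : ‖y‖ < 1) (hB : jd B ≠ 0) (hB' : jd B' ≠ 0) {Y Y' : PF (lsOf hH hS)}
    (hY : Y.Asy (V * k1 p) p) (hY' : Y'.Asy (V * k1 p) p) (h : Shp H T π y B C Y.F)
    (h' : Shp H T π y B' C' Y'.F) {c : ℝ} (hc : 0 < c) {a : M → ℝ} (ha : a ∈ QQ H) :
    Y'.dl (V * k1 p) p c a ≤ Y.dl (V * k1 p) p c a +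
      kc (V * k1 p) p c * (Real.log (jd B) - Real.log (jd B')) +
      mc (V * k1 p) p c * (C + C') := by
  have hV0 : 0 ≤ V := nonneg_of_mul_nonneg_left hY.k_nonneg (k1_pos hp)
  obtain ⟨U, l, hU, hU', hl⟩ := exists_diag hB hB'
  have hU0 : jd U ≠ 0 := jd_ne_iff.2 fun w hw => jd_ne_iff.1 hB w (by
    have := hU w
    rw [hw] at this
    simpa using this.symm)
  set k := V * k1 p with hk
  set m := ∑ i, |l i| with hm
  have hν : ∀ i, 0 ≤ l i + m := fun i => by
    linarith [neg_abs_le (l i), le_sum (ν := fun i => |l i|) (fun i => abs_nonneg _) i]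
  have hsum : ∑ i, (l i + m) = ∑ i, l i + p * m := by
    rw [Finset.sum_add_distrib, Finset.sum_const, Finset.card_univ, Fintype.card_fin,
      nsmul_eq_mul]
  have hs1 : ∀ σ w, ‖sh U (fun i => l i + m) σ 1 w‖ ^ 2 = Real.exp (σ - m) * ‖B' w‖ ^ 2 :=
    fun σ w => by
      rw [← hU', ← nsq_dg_add, sh_apply]
      congr 4
      funext i
      ring
  obtain ⟨κ, hκ, hlow⟩ := exists_low hB'
  set R : ℝ → ℝ := fun t => Y.dl k p c a + 2 * t + k * (c + t) ^ (p + 1) * (∑ i, l i + p * m) +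
    kc k p c * (m - 2 * t) - mc k p c * (c * m - 2 * c * t - C - C' - (c + t) * t) with hR
  have key : ∀ N : ℕ, Y'.dl k p c a ≤ R (1 / (N + 1)) := fun N => by
    set t : ℝ := 1 / (N + 1) with ht
    have ht0 : 0 < t := by positivity
    obtain ⟨r₁, hr₁, e1⟩ := h.out t ht0 c (c + t) hc (by linarith)
    obtain ⟨r₂, hr₂, e2⟩ := path hH hS hT hV hV0 hp hy hU0 hν N (c := c + t) (by linarith) ht0
    have hr : 0 < min r₁ r₂ := lt_min hr₁ hr₂
    have e3 := (tendsto_atTop_add_const_right atTop (2 * t - m) tendsto_id).eventually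
      ((h'.inn t ht0).and (eventually_gt_atTop Y'.s0))
    have e4 := (hY.tendsto0 hc ha).add_const (R t - Y.dl k p c a)
    rw [add_sub_cancel] at e4
    refine ge_of_tendsto e4 ?_
    filter_upwards [e1, e3, eventually_gt_atTop Y.s0,
      eventually_ge_atTop ((C + C' + (c + t) * t) / c),
      eventually_ge_atTop (-((c + t) * (t - m + Real.log (κ * min r₁ r₂ ^ 2)) + C) / t)]
      with s f1 f2 f3 f4 f5
    rw [div_le_iff₀ hc] at f4
    rw [div_le_iff₀ ht0] at f5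
    obtain ⟨f, hf, hfa, hfF, hfD⟩ := (Y.cons s f3 (c * s)).near ha ht0
    have g1 : ∀ w, min r₁ r₂ ≤ ‖w - y‖ →
        0 ≤ mdl N (c + t) (sh U (fun i => l i + m) (s + t) 1) y (-(c * s) + C) w := fun w hw => by
      have k1 : Real.exp (s + t - m) * (κ * min r₁ r₂ ^ 2) ≤
          ‖sh U (fun i => l i + m) (s + t) 1 (w - y)‖ ^ 2 := by
        rw [hs1]
        exact mul_le_mul_of_nonneg_left ((mul_le_mul_of_nonneg_left
          (pow_le_pow_left₀ hr.le hw 2) hκ.le).trans (hlow _)) (Real.exp_pos _).le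
      have k2 := (log_le_Fm (N := N) (by positivity)).trans (Fm_mono k1)
      rw [Real.log_mul (Real.exp_pos _).ne' (by positivity), Real.log_exp] at k2
      have k3 := mul_le_mul_of_nonneg_left k2 (show 0 ≤ c + t by linarith)
      unfold mdl ell
      linarith
    obtain ⟨g, hg, hgf, hgO, hgD⟩ := e2 (s + t) (-(c * s) + C) f hf
      (fun w hw => g1 w ((min_le_right _ _).trans hw)) fun x hx => by
        rcases le_total ‖π x - y‖ r₁ with k1 | k1
        · refine (f1 f hf hfF x hx k1).trans ?_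
          have k2 := logmax_le_Fm (N := N) (‖B (π x - y)‖ ^ 2 * Real.exp (s + t))
          have k3 := mul_le_mul_of_nonneg_left k2 (show 0 ≤ c + t by linarith)
          unfold mdl ell
          rw [sh_zero, hU, mul_comm (Real.exp _)]
          linarith
        · exact ((QQ.le hf x).trans (g1 _ ((min_le_left _ _).trans k1))).trans
            (ob_anti hν (by linarith) zero_le_one _)
    have g2 : g ∈ Y'.F (s + (2 * t - m)) (c * s - C - C' - (c + t) * t) :=
      f2.1 _ (by linarith) g fun x hx k1 => by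
        have k2 : ‖sh U (fun i => l i + m) (s + t) 1 (π x - y)‖ ^ 2 ≤ 1 := by
          rw [hs1]
          refine (mul_le_mul_of_nonneg_left k1 (Real.exp_pos _).le).trans (le_of_eq ?_)
          rw [← Real.exp_add, ← Real.exp_zero]
          congr 1
          simp only [id]
          ring
        have k3 := mul_le_mul_of_nonneg_left (Fm_le (N := N) k2) (show 0 ≤ c + t by linarith)
        have k4 := hgO x hx
        unfold mdl ell at k4
        linarith
    have g3 := hY'.dl_le hc ha f2.2 (c * s - C - C' - (c + t) * t)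
    have g4 : Y'.Φ a (s + (2 * t - m)) (c * s - C - C' - (c + t) * t) ≤ -En H g :=
      LS.dp_le (S := lsOf hH hS) hg (hgf.trans hfa) g2
    have g5 : -En H f < Y.Φ a s (c * s) + t := hfD
    rw [hsum] at hgD
    simp only [id] at g3
    simp only [hR]
    linarith
  have hRc : Continuous R := by fun_prop
  have := ge_of_tendsto' ((hRc.tendsto 0).comp tendsto_one_div_add_atTop_nhds_zero_nat) key
  simp only [hR, add_zero, mul_zero, sub_zero] at this
  have e := mc_mul k p c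
  rw [← hl]
  unfold kc at e this ⊢
  linear_combination this - m * e


end

end Crest.Agent.X261.Law
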