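import Crest.Agent.X261.Pole2.Glue
import Crest.Agent.X261.BT.Inst
import Crest.Agent.X261.BT.GlobB
import Crest.Agent.X261.BT.EnA
import Crest.Agent.X261.Law.Main

-- ▼ part X261/Pole2/Asy0
section

/-!
# Row 261, package Pole2 (helper32), file `Asy0`: asymptotics of the depth functional from the
energy of the model family
-/

set_option autoImplicit false
set_option linter.unusedSectionVars false

open Set Filter Topology MeasureTheory Metric

namespace Crest.Agent.X261.Pole2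

open Crest.Agent.R275.Geo
open Crest.Agent.R281.Kp_487 (KP)
open Crest.Agent.X261.BT

noncomputable section

theorem pw_near (p : ℕ) {u v c σ s D E : ℝ} (hu : 0 ≤ u) (huc : u ≤ c) (hv : 0 ≤ v) (hvc : v ≤ c)
    (hs : 0 ≤ s) (hσ : |σ - s| ≤ D) (hE : |(u - v) * s| ≤ E) :
    |u ^ (p + 1) * σ - v ^ (p + 1) * s| ≤ c ^ (p + 1) * D + (p + 1) * c ^ p * E := by
  have hc : 0 ≤ c := hu.trans huc
  have h1 : |u ^ (p + 1) - v ^ (p + 1)| ≤ |u - v| * (p + 1) * c ^ p := by
    have := abs_pow_sub_pow_le u v (p + 1)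
    rw [Nat.add_sub_cancel, Nat.cast_succ, abs_of_nonneg hu, abs_of_nonneg hv] at this
    exact this.trans (mul_le_mul_of_nonneg_left
      (pow_le_pow_left₀ (le_max_of_le_left hu) (max_le huc hvc) p) (by positivity))
  have h2 : |u ^ (p + 1) * (σ - s)| ≤ c ^ (p + 1) * D := by
    rw [abs_mul, abs_of_nonneg (pow_nonneg hu _)]
    exact mul_le_mul (pow_le_pow_left₀ hu huc _) hσ (abs_nonneg _) (pow_nonneg hc _)
  have h3 : |(u ^ (p + 1) - v ^ (p + 1)) * s| ≤ (p + 1) * c ^ p * E := by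
    rw [abs_mul, abs_of_nonneg hs] at hE ⊢
    calc |u ^ (p + 1) - v ^ (p + 1)| * s ≤ |u - v| * (p + 1) * c ^ p * s :=
          mul_le_mul_of_nonneg_right h1 hs
      _ = (p + 1) * c ^ p * (|u - v| * s) := by ring
      _ ≤ _ := mul_le_mul_of_nonneg_left hE (by positivity)
  calc _ = |u ^ (p + 1) * (σ - s) + (u ^ (p + 1) - v ^ (p + 1)) * s| := by congr 1; ring
    _ ≤ _ := (abs_add_le _ _).trans (add_le_add h2 h3)

variable {n p : ℕ} {M : Type} [TopologicalSpace M] {A : Atl n M} {H : KP A} {T : Set M}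
  {π : M → Cn p} {y : Cn p} {c r a s₀ : ℝ} {W : ℝ → M → ℝ} {K : Set M}
  [MeasurableSpace M] [BorelSpace M] [Countable A.ι] [T2Space M]

theorem VF.pp_smul (F : VF H T π y c W r a s₀ K) (hH : H.Semipos) {t s : ℝ} (h0 : 0 ≤ t)
    (h1 : t ≤ 1) (hs : s₀ ≤ s) : PP H fun x => t * W s x := by
  simpa using (F.pp s hs).cvx (PP.zero hH) h0 (sub_nonneg.2 h1) (add_sub_cancel _ _)

/-- depth of the model on the core -/
theorem VF.core (F : VF H T π y c W r a s₀ K) (hc : 0 ≤ c) {s : ℝ} (hs : s₀ ≤ s) {x : M}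
    (hx : x ∈ T) (h : ‖π x - y‖ ^ 2 ≤ Real.exp (-s)) : W s x ≤ a + c * (Real.log 2 - s) := by
  have h1 : ‖π x - y‖ < r := by
    refine lt_of_pow_lt_pow_left₀ 2 F.r_pos.le (h.trans_lt ?_)
    linarith [F.s_big, Real.exp_le_exp.2 (neg_le_neg hs), Real.exp_pos (-s₀)]
  have h2 : Real.exp s * ‖π x - y‖ ^ 2 ≤ 1 := by
    have := mul_le_mul_of_nonneg_left h (Real.exp_pos s).le
    rwa [← Real.exp_add, add_neg_cancel, Real.exp_zero] at this
  have h3 := (Ls_bd s y (π x)).2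
  rw [max_eq_right h2, Real.log_one] at h3
  rw [F.inn s hs x hx h1]
  exact add_le_add_right (mul_le_mul_of_nonneg_left (by linarith) hc) a

/-- the model is bounded away from the pole -/
theorem VF.away (F : VF H T π y c W r a s₀ K) (hc : 0 ≤ c) {r₀ : ℝ} (hr : 0 < r₀) :
    ∃ B : ℝ, 0 ≤ B ∧ ∀ s, s₀ ≤ s → ∀ x, ¬ (x ∈ T ∧ ‖π x - y‖ < r ∧ ‖π x - y‖ ≤ r₀) → -B ≤ W s x := by
  obtain ⟨B, hB⟩ := (F.pp s₀ le_rfl).qp.continuous.bounded_above_of_compact_support
    (F.pp s₀ le_rfl).cpt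
  refine ⟨|B| + |a + c * Real.log (r₀ ^ 2)|, by positivity, fun s hs x hx => ?_⟩
  by_cases h : x ∈ T ∧ ‖π x - y‖ < r
  · have h1 : r₀ < ‖π x - y‖ := not_le.1 fun h1 => hx ⟨h.1, h.2, h1⟩
    have h2 : Real.log (Real.exp s * r₀ ^ 2) ≤ Real.log (max (Real.exp s * ‖π x - y‖ ^ 2) 1) :=
      Real.log_le_log (by positivity) (le_max_of_le_left (by gcongr))
    rw [Real.log_mul (Real.exp_pos s).ne' (by positivity), Real.log_exp] at h2
    have h3 : Real.log (r₀ ^ 2) ≤ Ls s y (π x) := by linarith [(Ls_bd s y (π x)).1]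
    rw [F.inn s hs x h.1 h.2]
    linarith [mul_le_mul_of_nonneg_left h3 hc, neg_abs_le (a + c * Real.log (r₀ ^ 2)), abs_nonneg B]
  · rw [F.out s hs x h]
    linarith [neg_abs_le (W s₀ x), le_abs_self B, abs_nonneg (a + c * Real.log (r₀ ^ 2)),
      show |W s₀ x| ≤ B from hB x]

/-- comparison of energies from a one sided bound -/
theorem En_le_of_le (hH : H.Pos) {f g : M → ℝ} (hf : PP H f) (hf0 : ∀ x, f x ≤ 0) (hg : PP H g)
    (hK : IsCompact K) (h0 : ∀ x ∉ K, g x = 0) {E : ℝ} (hE : 0 ≤ E) (h : ∀ x, f x ≤ g x + E) :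
    En H f ≤ En H g + (MA H 0).real K * E :=
  (En_mono hH hf (hf.max hg) fun _ => le_max_left _ _).trans
    (En_lip hH (hf.max hg) hg hK (fun x hx => by rw [h0 x hx]; exact max_eq_right (hf0 x)) h0
      fun x _ => max_le (h x) (by linarith))

/-- **asymptotics of the depth functional**, from the energy of the models -/
theorem asym_of (hH : H.Pos) (hS : Slow H) {k : ℝ} (hk : 0 ≤ k)
    (hy : ∀ c > 0, ∃ W r a s₀ K, VF H T π y c W r a s₀ K ∧ ∃ C : ℝ, ∀ t, 0 ≤ t → t ≤ 1 →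
      ∀ s, s₀ ≤ s → |-En H (fun x => t * W s x) - k * (t * c) ^ (p + 1) * s| ≤ C)
    (F : ℝ → ℝ → Set (M → ℝ)) {C₀ r₀ s₁ : ℝ} (hr : 0 < r₀)
    (F2 : ∀ s ≥ s₁, ∀ h ≥ 0, ∀ f : M → ℝ,
      (∀ x ∈ T, ‖π x - y‖ ^ 2 ≤ Real.exp (C₀ - s) → f x ≤ -h - C₀) → f ∈ F s h)
    (F3 : ∀ s ≥ s₁, ∀ h ≥ 0, ∀ f : M → ℝ, PP H f → (∀ x, f x ≤ 0) → f ∈ F s h →
      ∀ x ∈ T, ‖π x - y‖ ≤ r₀ → f x ≤ -h + C₀ +
        h / (s - C₀) * Real.log (max (Real.exp (s + C₀) * ‖π x - y‖ ^ 2) 1))
    (c₁ : ℝ) : ∃ C s₂ : ℝ, ∀ s ≥ s₂, ∀ h, 0 ≤ h → h ≤ c₁ * s →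
      |(lsOf hH hS).dp (F s h) 0 - k * h ^ (p + 1) / s ^ p| ≤ C := by
  set c := |c₁| + 1 with hc
  have c0 : 0 < c := by positivity
  obtain ⟨W, r, a, s₀, K, G, CE, hE⟩ := hy c c0
  obtain ⟨B₀, hB₀, hB⟩ := G.away c0.le hr
  set D := |C₀| with hD
  have D0 : 0 ≤ D := abs_nonneg _
  have D1 : C₀ ≤ D := le_abs_self _
  have D2 : -D ≤ C₀ := neg_abs_le _
  have l2 : 0 ≤ Real.log 2 := Real.log_nonneg one_le_two
  set B := D + |a| + c * Real.log 2 with hBd
  have B0 : 0 ≤ B := by positivity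
  set E := D + 2 * c * D + |a| + B₀ with hEd
  have E0 : 0 ≤ E := by positivity
  set C₁ := k * (c ^ (p + 1) * D + (p + 1) * c ^ p * (B + c * D)) with hC₁
  have m0 : 0 ≤ (MA H 0).real K * E := by positivity
  refine ⟨CE + C₁ + (MA H 0).real K * E, max s₁ (s₀ + D + B + c * D + 1), fun s hs h h0 h1 => ?_⟩
  have hs1 : s₁ ≤ s := (le_max_left _ _).trans hs
  have hs2 : s₀ + D + B + c * D + 1 ≤ s := (le_max_right _ _).trans hs
  have cD : 0 ≤ c * D := by positivity
  have s00 := G.s_nonneg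
  have sp : 0 < s := by linarith
  have h2 : h ≤ |c₁| * s := h1.trans (mul_le_mul_of_nonneg_right (le_abs_self _) sp.le)
  have h3 : h + s ≤ c * s := by rw [hc]; linarith
  have v0 : 0 ≤ h / s := by positivity
  have vc : h / s ≤ c := (div_le_iff₀ sp).2 (by linarith)
  have ev : k * h ^ (p + 1) / s ^ p = k * ((h / s) ^ (p + 1) * s) := by
    rw [div_pow]; field_simp; ring
  -- comparison of the model energy with the main term
  have cmp : ∀ u σ, 0 ≤ u → u ≤ c → s₀ ≤ σ → |σ - s| ≤ D → |u * s - h| ≤ B + c * D →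
      |-En H (fun x => u / c * W σ x) - k * h ^ (p + 1) / s ^ p| ≤ CE + C₁ := by
    intro u σ u0 uc hσ h4 h5
    have e1 := hE (u / c) (by positivity) ((div_le_one c0).2 uc) σ hσ
    have e2 := pw_near p u0 uc v0 vc sp.le h4 (E := B + c * D)
      (by rwa [sub_mul, div_mul_cancel₀ _ sp.ne'])
    have e3 := mul_le_mul_of_nonneg_left e2 hk
    rw [← abs_of_nonneg hk, ← abs_mul, abs_of_nonneg hk, mul_sub] at e3
    rw [div_mul_cancel₀ _ c0.ne', mul_assoc] at e1
    rw [ev]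
    exact (abs_sub_le _ _ _).trans (add_le_add e1 e3)
  have pp : ∀ u σ, 0 ≤ u → u ≤ c → s₀ ≤ σ → PP H fun x => u / c * W σ x := fun u σ u0 uc hσ =>
    G.pp_smul (pos_semi hH) (by positivity) ((div_le_one c0).2 uc) hσ
  -- the competitor
  have σp : 0 < s - D := by linarith
  have u0 : 0 ≤ (h + B) / (s - D) := by positivity
  have uc : (h + B) / (s - D) ≤ c := (div_le_iff₀ σp).2 (by rw [mul_sub]; linarith)
  have ue : (h + B) / (s - D) * (s - D) = h + B := div_mul_cancel₀ _ σp.ne'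
  have le0 : (fun x => (h + B) / (s - D) / c * W (s - D) x) ≤ 0 := fun x =>
    mul_nonpos_of_nonneg_of_nonpos (by positivity) (G.le _ (by linarith) x)
  have mem : (fun x => (h + B) / (s - D) / c * W (s - D) x) ∈ F s h := by
    refine F2 s hs1 h h0 _ fun x hx hx' => ?_
    have k1 := G.core c0.le (s := s - D) (by linarith) hx
      (hx'.trans (Real.exp_le_exp.2 (by linarith)))
    generalize (h + B) / (s - D) = u at *
    have t1 : u / c ≤ 1 := (div_le_one c0).2 uc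
    have t0 : 0 ≤ u / c := by positivity
    have k2 := mul_le_mul_of_nonneg_left k1 t0
    have k3 : u / c * (a + c * (Real.log 2 - (s - D))) =
        u / c * a + u * Real.log 2 - u * (s - D) := by field_simp; ring
    have k4 : u / c * a ≤ |a| := (mul_le_mul_of_nonneg_left (le_abs_self a) t0).trans
      (mul_le_of_le_one_left (abs_nonneg a) t1)
    have k5 := mul_le_mul_of_nonneg_right uc l2
    linarith
  have q1 : (fun x => (h + B) / (s - D) / c * W (s - D) x) ∈ (lsOf hH hS).Q :=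
    ⟨pp _ _ u0 uc (by linarith), le0⟩
  have up := Pole.LS.dp_le q1 le0 mem
  have up' := cmp _ (s - D) u0 uc (by linarith) (by rw [sub_sub_cancel_left, abs_neg, abs_abs])
    (by
      have : (h + B) / (s - D) * s - h = B + (h + B) / (s - D) * D := by linarith
      rw [this, abs_of_nonneg (by positivity)]
      linarith [mul_le_mul_of_nonneg_right uc D0])
  refine abs_le.2 ⟨?_, by
    have := (abs_le.1 up').2
    change _ ≤ -En H _ at up
    linarith⟩
  -- the lower bound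
  have τp : 0 < s - C₀ := by linarith
  have w0 : 0 ≤ h / (s - C₀) := by positivity
  have cC : c * C₀ ≤ c * D := mul_le_mul_of_nonneg_left D1 c0.le
  have wc : h / (s - C₀) ≤ c := (div_le_iff₀ τp).2 (by rw [mul_sub]; linarith)
  have we : h / (s - C₀) * (s - C₀) = h := div_mul_cancel₀ _ τp.ne'
  have wD : |h / (s - C₀) * C₀| ≤ c * D := by
    rw [abs_mul, abs_of_nonneg w0]; exact mul_le_mul_of_nonneg_right wc D0
  have lo := cmp _ (s + C₀) w0 wc (by linarith) (by rw [add_sub_cancel_left])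
    (by
      have : h / (s - C₀) * s - h = h / (s - C₀) * C₀ := by linarith
      rw [this]; linarith)
  have low : k * h ^ (p + 1) / s ^ p - (CE + C₁ + (MA H 0).real K * E) ≤
      (lsOf hH hS).dp (F s h) 0 := by
    refine le_csInf ⟨_, _, ⟨q1, le0, mem⟩, rfl⟩ ?_
    rintro _ ⟨f, ⟨hf, -, hf'⟩, rfl⟩
    have k0 := F3 s hs1 h h0 f hf.1 hf.2 hf'
    have k1 := En_le_of_le hH hf.1 hf.2 (pp _ (s + C₀) w0 wc (by linarith)) G.cpt
      (fun x hx => by rw [G.off _ (by linarith) x hx, mul_zero]) E0 fun x => by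
        generalize h / (s - C₀) = u at *
        have t1 : u / c ≤ 1 := (div_le_one c0).2 wc
        have t0 : 0 ≤ u / c := by positivity
        by_cases hx : x ∈ T ∧ ‖π x - y‖ < r ∧ ‖π x - y‖ ≤ r₀
        · have k2 := k0 x hx.1 hx.2.2
          have k3 := mul_le_mul_of_nonneg_left (Ls_bd (s + C₀) y (π x)).1 w0
          have k4 : u / c * (a + c * Ls (s + C₀) y (π x)) =
              u / c * a + u * Ls (s + C₀) y (π x) := by field_simp
          have k5 : -|a| ≤ u / c * a := by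
            have := mul_le_mul_of_nonneg_left (neg_abs_le a) t0
            linarith [mul_le_of_le_one_left (abs_nonneg a) t1]
          rw [G.inn _ (by linarith) x hx.1 hx.2.1, k4]
          linarith [le_abs_self (u * C₀)]
        · have k2 := mul_le_mul_of_nonneg_left (hB (s + C₀) (by linarith) x hx) t0
          have k3 : f x ≤ 0 := hf.2 x
          linarith [mul_le_of_le_one_left hB₀ t1, abs_nonneg a]
    have := (abs_le.1 lo).1
    change _ ≤ -En H f
    linarith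
  linarith

end

end Crest.Agent.X261.Pole2
end

-- ▼ part X261/BT/GlobC
section

/-!
# X261 / BT (helper9): global integration by parts without positivity hypotheses

`MX_stokes_on'`, `MX_neg_on'`, `MX_mass'`, `mxs_MX0`.
-/

set_option autoImplicit false
set_option linter.unusedSectionVars false

open Set Filter Topology MeasureTheory Metric Function
open scoped ContDiff

namespace Crest.Agent.X261.BT

open Crest.Agent.R275.Geo
open Crest.Agent.R281.Kp_487 (KP pot)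

noncomputable section

variable {n : ℕ} {M : Type} [TopologicalSpace M] [T2Space M] {A : Atl n M} {U V W K : Set M}
  {G G' : KP A} {a b c d f g P Q ψ : M → ℝ}

/-- bounded psh functions -/
def BZ (A : Atl n M) (V : Set M) (a : M → ℝ) : Prop :=
  QP (zr A) V a ∧ ∃ S, ∀ x ∈ V, |a x| ≤ S

/-- differences of bounded psh functions -/
def BD (A : Atl n M) (V : Set M) (f : M → ℝ) : Prop :=
  ∃ P Q, BZ A V P ∧ BZ A V Q ∧ ∀ x ∈ V, f x = P x - Q x

theorem BZ.prod (h : BZ A V a) (h' : BZ A V b) : IsDP A V fun x => a x * b x :=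
  let ⟨_, h1⟩ := h.2; let ⟨_, h2⟩ := h'.2; IsDP.prod h.1 semi_zr h'.1 semi_zr h1 h2

theorem BD.dp (h : BD A V f) : IsDP A V f := let ⟨P, Q, h1, h2, h3⟩ := h; ⟨_, P, Q, h1.1, h2.1, h3⟩

theorem BD.prod (h : BD A V f) (h' : BD A V g) : IsDP A V fun x => f x * g x := by
  obtain ⟨P, Q, h1, h2, h3⟩ := h
  obtain ⟨P', Q', h4, h5, h6⟩ := h'
  exact (((h1.prod h4).sub (h1.prod h5)).sub ((h2.prod h4).sub (h2.prod h5))).congr fun x hx => by
    rw [h3 x hx, h6 x hx]; ring

section chart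

variable {i : A.ι} (hV : IsOpen V) (hc : IsCompact (closure V))
  (hs : closure V ⊆ U ∩ (A.e i).source)
include hV hc hs

theorem bz_of_cp {w : Cn n → ℝ} (hw : CP (chU A U i) w) : BZ A V fun x => w (A.e i x) := by
  have h1 : ContinuousOn (fun x => w (A.e i x)) (closure V) :=
    hw.1.comp ((A.e i).continuousOn.mono fun x hx => (hs hx).2) fun x hx =>
      mem_chU (hs hx).2 (hs hx).1
  obtain ⟨S, hS⟩ := hc.exists_bound_of_continuousOn h1
  refine ⟨QP.of_chart1 hV (h1.mono subset_closure) (fun x hx => (hs (subset_closure hx)).2)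
    ((hw.mono (chU_mono (fun x hx => (hs (subset_closure hx)).1) i)).congr (isOpen_chU hV i)
      fun z hz => ?_).2, S, fun x hx => hS x (subset_closure hx)⟩
  rw [pot_apply, wt_zr, zero_add, (A.e i).right_inv hz.1]

theorem bd_sub (ha : QP G U a) (hb : QP G U b) : BD A V fun x => a x - b x :=
  ⟨_, _, bz_of_cp hV hc hs (ha.cp i), bz_of_cp hV hc hs (hb.cp i), fun x hx => by
    rw [pot_apply, pot_apply, (A.e i).left_inv (hs (subset_closure hx)).2]; ring⟩

theorem bd_sm (hU : IsOpen U) (hf : A.Sm f) : BD A V f := by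
  have ho := hU.inter (A.e i).open_source
  obtain ⟨η, s, t, h1, -⟩ := exists_cutM A hc ho hs
  have t1 := t.mul_on ho (sm_cont hf).continuousOn
  obtain ⟨C, hC, h2⟩ := exists_dp (rd_smooth t1 fun j => (s j).mul (hf j)) t1.rd.cpt
  refine ⟨_, _, bz_of_cp hV hc hs ((h2.mono (subset_univ _)).cp (isOpen_chU hU i)),
    bz_of_cp hV hc hs (((sp_nsq hC).mono (subset_univ _)).cp (isOpen_chU hU i)), fun x hx => ?_⟩
  have h3 := (hs (subset_closure hx)).2
  rw [rd_of_mem ((A.e i).map_source h3), (A.e i).left_inv h3,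
    h1.self_of_nhdsSet x (subset_closure hx)]
  ring

end chart

theorem IsDP.mono (h : IsDP A W f) (hV : IsOpen V) (hs : V ⊆ W) : IsDP A V f :=
  let ⟨G, P, Q, h⟩ := h; ⟨G, P, Q, h.p.mono hV hs, h.q.mono hV hs, fun x hx => h.eq x (hs hx)⟩

variable [MeasurableSpace M] [BorelSpace M] [Countable A.ι] {H : Fin n → KP A}
  {φ : Fin n → M → ℝ}

section slot

variable (hW : IsOpen W) (h : ∀ k, QP (H k) W (φ k)) (k : Fin n)
include hW h

theorem dI_loc (hP : QP G W P) (hQ : QP G W Q) (hV : IsOpen V) (hs : V ⊆ W)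
    (h0 : ∀ x ∈ W, x ∉ V → ψ x = 0) : dI V H φ k G P Q ψ = dI W H φ k G P Q ψ := by
  rw [dI, dI, int_MX_sub hW (qp_upd h k hP) hV hs h0, int_MX_sub hW (qp_upd h k hQ) hV hs h0]

theorem dJ_loc (h1 : IsDP A W f) (hV : IsOpen V) (hs : V ⊆ W) (hψ : Tst V ψ) :
    dJ V H φ k f ψ = dJ W H φ k f ψ := by
  obtain ⟨G, P, Q, h1⟩ := h1
  rw [dJ_eq hW h k h1 (hψ.mono hs), dJ_eq hV (fun l => (h l).mono hV hs) k
    ⟨h1.p.mono hV hs, h1.q.mono hV hs, fun x hx => h1.eq x (hs hx)⟩ hψ,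
    dI_loc hW h k h1.p h1.q hV hs fun x _ hx => hψ.zero_off hx]

theorem dJ_off (h1 : IsDP A W f) (hK : IsClosed K) (t : ℝ) (h0 : ∀ x ∈ W, x ∉ K → f x = t)
    (hψ : Tst W ψ) (hg : Tst W g) (e : ∀ x ∈ K, ψ x = g x) :
    dJ W H φ k f ψ = dJ W H φ k f g := by
  obtain ⟨G, P, Q, h1⟩ := h1
  have h2 : ∀ x ∈ W, x ∉ K → P x = Q x + t := fun x hx hx' => by
    linarith [h1.eq x hx, h0 x hx hx']
  rw [dJ_eq hW h k h1 hψ, dJ_eq hW h k h1 hg, dI_set hW h k h1.p h1.q hK t h2 hψ e,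
    dI_set hW h k h1.p h1.q hK t h2 hg fun _ _ => rfl]


end slot

/-- finite partition with relatively compact chart domains -/
structure Pd (A : Atl n M) (U K : Set M) (t : Finset A.ι) (V : A.ι → Set M)
    (χ η : A.ι → M → ℝ) : Prop where
  op : ∀ i, IsOpen (V i)
  cpt : ∀ i, IsCompact (closure (V i))
  sub : ∀ i, closure (V i) ⊆ U ∩ (A.e i).source
  sm : ∀ i, A.Sm (χ i)
  tχ : ∀ i, Tst (V i) (χ i)
  tη : ∀ i, Tst (V i) (η i)
  nn : ∀ i x, 0 ≤ χ i x
  one : ∀ i, ∀ x ∈ tsupport (χ i), η i x = 1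
  sum : ∀ᶠ y in 𝓝ˢ K, ∑ i ∈ t, χ i y = 1

theorem exists_pd (A : Atl n M) [Countable A.ι] (hU : IsOpen U) (hK : IsCompact K) (hKU : K ⊆ U) :
    ∃ t V χ η, Pd A U K t V χ η := by
  have := lcs A
  have := sct A
  obtain ⟨t, χ, p1, p2, p3, -, p5⟩ := exists_partM A hK hU hKU
  choose V v1 v2 v3 v4 using fun i => exists_open_between_and_isCompact_closure (p2 i).cpt
    (hU.inter (A.e i).open_source) (p2 i).sub
  choose η t1 t2 _ using fun i => exists_tst (p2 i).cpt (v1 i) (v2 i)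
  exact ⟨t, V, χ, η, v1, v4, v3, p1, fun i => ⟨(p2 i).cont, (p2 i).cpt, v2 i⟩, t1,
    fun i x => (p3 i x).1, t2, p5⟩

namespace Pd

variable {t : Finset A.ι} {V : A.ι → Set M} {χ η : A.ι → M → ℝ} (p : Pd A U K t V χ η)
include p

theorem le (i : A.ι) : V i ⊆ U := fun _ hx => (p.sub i (subset_closure hx)).1

theorem ch (i : A.ι) (hf : Tst (V i) f) : Tst (V i ∩ (A.e i).source) f :=
  hf.inter fun _ hx => (p.sub i (subset_closure (hf.sub hx))).2

theorem mul (i : A.ι) (hg : ContinuousOn g U) : Tst (V i) fun x => χ i x * g x :=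
  (p.tχ i).mul_on (p.op i) (hg.mono (p.le i))

theorem csum (hg : ContinuousOn g U) : ContinuousOn (fun x => ∑ j ∈ t, χ j x * g x) U :=
  continuousOn_finsetSum _ fun j _ => (p.tχ j).cont.continuousOn.mul hg

theorem split (h0 : ∀ x ∈ U, x ∉ K → f x = 0) : ∀ x ∈ U, f x = ∑ i ∈ t, χ i x * f x :=
  fun x hx => by
    rw [← Finset.sum_mul]
    by_cases hxK : x ∈ K
    · rw [p.sum.self_of_nhdsSet x hxK, one_mul]
    · rw [h0 x hx hxK, mul_zero]

/-- exchange of the charts -/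
theorem exch (h : ∀ k, QP (H k) U (φ k)) (k : Fin n) (i : A.ι) (hf : ∀ j, IsDP A (V j) f)
    (h0 : ∀ x, x ∉ tsupport (χ i) → f x = 0) (hg : ContinuousOn g U) :
    dJ (V i) H φ k f (fun x => η i x * ∑ j ∈ t, χ j x * g x) =
      ∑ j ∈ t, dJ (V j) H φ k f fun x => χ j x * g x := by
  have h' : ∀ j l, QP (H l) (V j) (φ l) := fun j l => (h l).mono (p.op j) (p.le j)
  have t1 : ∀ j, Tst (V i) fun x => η i x * (χ j x * g x) := fun j =>
    (p.tη i).mul_on (p.op i) (((p.tχ j).cont.continuousOn.mul hg).mono (p.le i))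
  have t2 : ∀ j, Tst (V i ∩ V j) fun x => η i x * (χ j x * g x) := fun j =>
    (t1 j).inter (tsupport_mul_subset_right.trans (p.mul j hg).sub)
  obtain ⟨G, P, Q, d⟩ := hf i
  rw [dJ_eq (p.op i) (h' i) k d ((p.tη i).mul_on (p.op i) ((p.csum hg).mono (p.le i))),
    dI_sum (p.op i) (h' i) k d.p d.q t t1 fun x _ => Finset.mul_sum _ _ _]
  refine Finset.sum_congr rfl fun j _ => ?_
  have ho := (p.op i).inter (p.op j)
  rw [← dJ_eq (p.op i) (h' i) k d (t1 j), ← dJ_loc (p.op i) (h' i) k ⟨_, _, _, d⟩ ho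
    inter_subset_left (t2 j), dJ_loc (p.op j) (h' j) k (hf j) ho inter_subset_right (t2 j)]
  exact dJ_off (p.op j) (h' j) k (hf j) (isClosed_tsupport _) 0 (fun x _ hx => h0 x hx)
    ((t2 j).mono inter_subset_right) (p.mul j hg) fun x hx => by rw [p.one i x hx, one_mul]

end Pd

section main

variable (hU : IsOpen U) (h : ∀ k, QP (H k) U (φ k)) (k : Fin n)
  (ha : QP G U a) (hb : QP G U b) (hK : IsCompact K) (hKU : K ⊆ U)
  (e : ∀ x ∈ U, x ∉ K → a x = b x)
include hU h ha hb hK hKU e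

/-- **Stokes** -/
theorem MX_stokes_on' (hc : QP G' U c) (hd : QP G' U d) :
    ∫ x, (a x - b x) ∂MX U (update H k G') (update φ k c) -
      ∫ x, (a x - b x) ∂MX U (update H k G') (update φ k d) =
      ∫ x in K, (c x - d x) ∂MX U (update H k G) (update φ k a) -
        ∫ x in K, (c x - d x) ∂MX U (update H k G) (update φ k b) := by
  obtain ⟨t, V, χ, η, p⟩ := exists_pd A hU hK hKU
  have h' : ∀ j l, QP (H l) (V j) (φ l) := fun j l => (h l).mono (p.op j) (p.le j)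
  have c1 : ContinuousOn (fun x => a x - b x) U := ha.cont.sub hb.cont
  have c2 : ContinuousOn (fun x => c x - d x) U := hc.cont.sub hd.cont
  have e0 : ∀ x ∈ U, x ∉ K → a x - b x = 0 := fun x h1 h2 => sub_eq_zero.2 (e x h1 h2)
  have d1 : ∀ j i, IsDP A (V j) fun x => χ i x * (a x - b x) := fun j i =>
    (bd_sm (p.op j) (p.cpt j) (p.sub j) hU (p.sm i)).prod
      (bd_sub (p.op j) (p.cpt j) (p.sub j) ha hb)
  have t1 : ∀ j, Tst U fun x => χ j x * (c x - d x) := fun j => (p.mul j c2).mono (p.le j)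
  have t2 : Tst U fun x => ∑ j ∈ t, χ j x * (c x - d x) :=
    Tst.of_cpt (continuous_finsetSum _ fun j _ => (t1 j).cont)
      (t.isCompact_biUnion fun j _ => (t1 j).cpt) (iUnion₂_subset fun j _ => (t1 j).sub)
      fun x hx => Finset.sum_eq_zero fun j hj => image_eq_zero_of_notMem_tsupport
        (f := fun x => χ j x * (c x - d x)) fun h1 => hx (mem_biUnion hj h1)
  rw [← dI_set hU h k ha hb hK.isClosed 0 (fun x hx hx' => by rw [e x hx hx', add_zero]) t2
      fun x hx => by rw [← Finset.sum_mul, p.sum.self_of_nhdsSet x hx, one_mul],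
    dI_sum hU h k ha hb t t1 fun _ _ => rfl]
  refine (dI_sum hU h k hc hd t (fun i => (p.mul i c1).mono (p.le i)) (p.split e0)).trans ?_
  have h1 : ∀ i, dI U H φ k G' c d (fun x => χ i x * (a x - b x)) =
      ∑ j ∈ t, dJ (V j) H φ k (fun x => χ i x * (a x - b x)) fun x => χ j x * (c x - d x) := by
    intro i
    obtain ⟨G₁, P, Q, d2⟩ := d1 i i
    have t3 := (p.tη i).mul_on (p.op i) ((p.csum c2).mono (p.le i))
    have h2 : tsupport (fun x => χ i x * (a x - b x)) ⊆ K := tsupp_of hK fun x hx => by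
      by_cases hxU : x ∈ U
      · rw [e0 x hxU hx, mul_zero]
      · rw [(p.tχ i).zero_off fun h3 => hxU (p.le i h3), zero_mul]
    rw [← p.exch h k i (fun j => d1 j i) (fun x hx => by
        rw [image_eq_zero_of_notMem_tsupport hx, zero_mul]) c2, dJ_eq (p.op i) (h' i) k d2 t3,
      ← dI_loc hU h k hc hd (p.op i) (p.le i) fun x _ hx => (p.mul i c1).zero_off hx]
    exact dI_stokes1 (p.op i) (h' i) k d2 (p.ch i (p.mul i c1)) (hc.mono (p.op i) (p.le i))
      (hd.mono (p.op i) (p.le i)) t3 fun x hx => by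
        rw [p.one i x (tsupport_mul_subset_left hx), one_mul, ← Finset.sum_mul,
          p.sum.self_of_nhdsSet x (h2 hx), one_mul]
  simp only [h1]
  rw [Finset.sum_comm]
  refine Finset.sum_congr rfl fun j _ => ?_
  rw [← dJ_sum (p.op j) (h' j) k t (d1 j) (p.mul j c2), dJ_eq (p.op j) (h' j) k
    ⟨ha.mono (p.op j) (p.le j), hb.mono (p.op j) (p.le j), fun x hx =>
      (p.split e0 x (p.le j hx)).symm⟩ (p.mul j c2),
    dI_loc hU h k ha hb (p.op j) (p.le j) fun x _ hx => (p.mul j c2).zero_off hx]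



end main



end

end Crest.Agent.X261.BT
end

-- ▼ part X261/Law/Fld

/-!
# Row 261, package LAW (helper64), file `Fld`: the locally uniform form of the law
-/

set_option autoImplicit false
set_option linter.unusedSectionVars false

open Set Filter Topology

namespace Crest.Agent.X261.Law

open Crest.Agent.R275.Geo
open Crest.Agent.R281.Kp_487 (KP)
open Crest.Agent.X261.BT Crest.Agent.X261.Pole
open Crest.Agent.X261.Pole2 (jd k1 k1_pos TB Vol)

noncomputable section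

theorem mc_le_kc {k : ℝ} (hk : 0 ≤ k) (p : ℕ) (C : ℝ) {ε : ℝ} (hε : 0 < ε) :
    ∀ᶠ c in atTop, mc k p c * C ≤ ε * kc k p c := by
  filter_upwards [eventually_gt_atTop 0, eventually_ge_atTop ((p + 1) * C / ε)] with c h0 h1
  rw [div_le_iff₀ hε] at h1
  have := mul_le_mul_of_nonneg_left h1 (show 0 ≤ k * c ^ p by positivity)
  unfold mc kc
  rw [pow_succ]
  linarith

variable {n p : ℕ} {M : Type} [TopologicalSpace M] {A : Atl n M} [MeasurableSpace M] [BorelSpace M]
  [Countable A.ι] [T2Space M] {H : KP A} {T : Set M} {π : M → Cn p} {V : ℝ}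

/-- the field `law` of `EnP.Dat` -/
theorem field (hH : H.Pos) (hS : Slow H) (hT : TB A T π) (hV : Vol H T π V) (hV0 : 0 ≤ V)
    (hp : 1 ≤ p) {k : ℝ} (hk : k = V * k1 p) {X X' : M → PF (lsOf hH hS)} {lam lam' : M → ℝ}
    {S : Set M} {x : M} {C : ℝ} {B B' : M → Cn p →L[ℂ] Cn p}
    (h : ∀ᶠ z in 𝓝 x, z ∉ S → z ∈ T ∧ jd (B z) ≠ 0 ∧ jd (B' z) ≠ 0 ∧ (X z).Asy k p ∧
      (X' z).Asy k p ∧ Shp H T π (π z) (B z) C (X z).F ∧ Shp H T π (π z) (B' z) C (X' z).F ∧
      lam z - lam' z = Real.log (jd (B' z)) - Real.log (jd (B z))) {ε : ℝ} (hε : 0 < ε) :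
    ∀ᶠ q : ℝ × M in atTop ×ˢ 𝓝 x, q.2 ∉ S →
      (X q.2).dl k p q.1 0 - kc k p q.1 * lam q.2 ≤
        (X' q.2).dl k p q.1 0 - kc k p q.1 * lam' q.2 + ε * kc k p q.1 := by
  subst hk
  filter_upwards [((mc_le_kc (mul_nonneg hV0 (k1_pos hp).le) p (C + C) hε).and
    (eventually_gt_atTop 0)).prod_mk h] with q hq hS'
  obtain ⟨h1, h2, h3, h4, h5, h6, h7, h8⟩ := hq.2 hS'
  have := law hH hS hT hV hp (hT.lt_one h1) h3 h2 h5 h4 h7 h6 hq.1.2 (QQ.zero (pos_semi hH))
  rw [← h8] at this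
  linarith [hq.1.1]


end

end Crest.Agent.X261.Law
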